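import Vale.Agent.P002.GenusOne

/-!
Homomorphisms of an arbitrary group into special linear groups: coordinates, polynomial closures of
products, and the twisting property passed on to product groups.
-/

namespace Vale.Agent.P002

open Matrix MvPolynomial

variable {r : ℕ} {Γ : Type*} [Group Γ]

/-- The matrix entries of a map to the special linear group. -/
def hcoord (ρ : Γ → SLC r) : Γ × Fin r × Fin r → ℂ := fun v => (ρ v.1).val v.2.1 v.2.2

/-- The integral homomorphisms. -/
def intHom (Γ : Type*) [Group Γ] (r : ℕ) : Set (Γ × Fin r × Fin r → ℂ) :=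
  {x | ∃ σ : Γ →* Matrix.SpecialLinearGroup (Fin r) ℤ, x = hcoord fun γ => castSL r (σ γ)}

/-- Irreducible representations are twists, up to conjugation, of homomorphisms to special linear
groups lying in the closure of the integral ones. -/
def Twisted (Γ : Type*) [Group Γ] : Prop :=
  ∀ (d : ℕ) [NeZero d] (ρ : Γ →* (Mat d)ˣ), Irred (fun γ => (ρ γ).val) →
    ∃ (χ : Γ →* ℂˣ) (σ : Γ →* SLC d) (M : (Mat d)ˣ), hcoord σ ∈ polyCl (intHom Γ d) ∧
      ∀ γ, (ρ γ).val = (χ γ : ℂ) • (M.val * (σ γ).val * M⁻¹.val)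

/-- A closure of a binary product. -/
lemma polyCl_sum {α β : Type*} {S : Set (α → ℂ)} {T : Set (β → ℂ)} {x : α → ℂ} {y : β → ℂ}
    (hx : x ∈ polyCl S) (hy : y ∈ polyCl T) :
    Sum.elim x y ∈ polyCl {z | ∃ a ∈ S, ∃ b ∈ T, z = Sum.elim a b} := by
  have e1 : ∀ (a : α → ℂ) (b : β → ℂ),
      (fun k => eval a (Sum.elim (fun i => X i) (fun j => C (b j)) k)) = Sum.elim a b :=
    fun a b => by funext k; cases k <;> simp
  have e2 : ∀ (a : α → ℂ) (b : β → ℂ),
      (fun k => eval b (Sum.elim (fun i => C (a i)) (fun j => X j) k)) = Sum.elim a b :=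
    fun a b => by funext k; cases k <;> simp
  rw [← e1 x y]
  refine polyCl_map _ (fun a ha => ?_) hx
  rw [e1, ← e2 a y]
  refine polyCl_map _ (fun b hb => ?_) hy
  rw [e2]
  exact subset_polyCl _ ⟨a, ha, b, hb, rfl⟩

/-- A closure of a finite product. -/
lemma polyCl_pi {J : Type*} [Fintype J] {κ : J → Type*} {S : ∀ j, Set (κ j → ℂ)}
    {x : ∀ j, κ j → ℂ} (hx : ∀ j, x j ∈ polyCl (S j)) :
    (fun v : Σ j, κ j => x v.1 v.2) ∈
      polyCl {z | ∃ y : ∀ j, κ j → ℂ, (∀ j, y j ∈ S j) ∧ z = fun v => y v.1 v.2} := by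
  classical
  suffices H : ∀ T : Finset J, ∀ y : ∀ j, κ j → ℂ, (∀ j ∈ T, y j = x j) →
      (∀ j, j ∉ T → y j ∈ S j) → (fun v : Σ j, κ j => y v.1 v.2) ∈
        polyCl {z | ∃ y : ∀ j, κ j → ℂ, (∀ j, y j ∈ S j) ∧ z = fun v => y v.1 v.2} from
    H Finset.univ x (fun _ _ => rfl) fun j hj => absurd (Finset.mem_univ j) hj
  intro T
  induction T using Finset.induction_on with
  | empty => exact fun y _ h => subset_polyCl _ ⟨y, fun j => h j (Finset.notMem_empty j), rfl⟩
  | insert j T hj ih =>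
    intro y hyx hyS
    let q : ∀ i, κ i → MvPolynomial (κ j) ℂ :=
      Function.update (fun i v => C (y i v)) j fun v => X v
    have e : ∀ a : κ j → ℂ, (fun v : Σ i, κ i => eval a (q v.1 v.2)) =
        fun v => Function.update y j a v.1 v.2 := fun a => by
      funext ⟨i, v⟩
      rcases eq_or_ne i j with rfl | hne
      · simp [q]
      · simp [q, Function.update_of_ne hne]
    have h1 := polyCl_map (fun v : Σ i, κ i => q v.1 v.2)
      (T := {z | ∃ y : ∀ j, κ j → ℂ, (∀ j, y j ∈ S j) ∧ z = fun v => y v.1 v.2})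
      (fun a ha => ?_) (hx j)
    · rw [e, ← hyx j (Finset.mem_insert_self j T), Function.update_eq_self] at h1
      exact h1
    rw [e]
    refine ih _ (fun i hi => ?_) fun i hi => ?_
    · rw [Function.update_of_ne (fun h => hj (by rw [← h]; exact hi))]
      exact hyx i (Finset.mem_insert_of_mem hi)
    · rcases eq_or_ne i j with rfl | hne
      · rwa [Function.update_self]
      · rw [Function.update_of_ne hne]
        exact hyS i fun h => (Finset.mem_insert.1 h).elim hne hi

/-- A homomorphism mapping generators to maps preserving a subspace preserves it. -/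
lemma invariant_closure {d : ℕ} (ρ : Γ →* (Mat d)ˣ) {U : Submodule ℂ (Fin d → ℂ)} {S : Set Γ}
    (hS : ∀ γ ∈ S, ∀ u ∈ U, (ρ γ).val *ᵥ u ∈ U) :
    ∀ γ ∈ Subgroup.closure S, ∀ u ∈ U, (ρ γ).val *ᵥ u ∈ U := by
  intro γ hγ
  induction hγ using Subgroup.closure_induction with
  | mem x hx => exact hS x hx
  | one => simp
  | mul x y _ _ hx hy =>
    intro u hu
    rw [map_mul, Units.val_mul, ← Matrix.mulVec_mulVec]
    exact hx _ (hy u hu)
  | inv x _ hx =>
    intro u hu
    let f : U →ₗ[ℂ] U := (Matrix.toLin' (ρ x).val).restrict fun w hw => by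
      simpa using hx w hw
    have hinj : Function.Injective f := fun a b h => by
      have h' := congrArg (fun w : U => (ρ x)⁻¹.val *ᵥ (w : Fin d → ℂ)) h
      simp only [f, LinearMap.coe_restrict_apply, Matrix.toLin'_apply, Matrix.mulVec_mulVec,
        Units.inv_mul, Matrix.one_mulVec] at h'
      exact Subtype.ext h'
    obtain ⟨w, hw⟩ := (LinearMap.injective_iff_surjective.1 hinj) ⟨u, hu⟩
    have hw' : (ρ x).val *ᵥ (w : Fin d → ℂ) = u := by
      simpa [f] using congrArg Subtype.val hw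
    rw [← hw', map_inv, Matrix.mulVec_mulVec, Units.inv_mul, Matrix.one_mulVec]
    exact w.2

/-- In dimension one every group is twisted trivially. -/
lemma twisted_one (ρ : Γ →* (Mat 1)ˣ) :
    ∃ (χ : Γ →* ℂˣ) (σ : Γ →* SLC 1) (M : (Mat 1)ˣ), hcoord σ ∈ polyCl (intHom Γ 1) ∧
      ∀ γ, (ρ γ).val = (χ γ : ℂ) • (M.val * (σ γ).val * M⁻¹.val) := by
  refine ⟨(Units.map Matrix.detMonoidHom).comp ρ, 1, 1, subset_polyCl _ ⟨1, ?_⟩, fun γ => ?_⟩
  · funext v
    simp [hcoord]
  · ext a b
    rw [Subsingleton.elim a 0, Subsingleton.elim b 0]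
    simp [Matrix.detMonoidHom]

/-- Irreducibility only depends on the conjugacy class. -/
lemma irred_conj {d : ℕ} {κ : Type*} {f g : κ → Mat d} (N : (Mat d)ˣ) (hf : Irred f)
    (h : ∀ k, g k = N⁻¹.val * f k * N.val) : Irred g := by
  intro U hU
  let e : (Fin d → ℂ) ≃ₗ[ℂ] (Fin d → ℂ) := Matrix.toLin'OfInv (Units.inv_mul N) (Units.mul_inv N)
  have he : ∀ w, e w = N.val *ᵥ w := fun w => Matrix.toLin'_apply N.val w
  rcases hf (U.map e.toLinearMap) (fun k w hw => by
    obtain ⟨u, hu, rfl⟩ := Submodule.mem_map.1 hw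
    refine Submodule.mem_map.2 ⟨g k *ᵥ u, hU k u hu, ?_⟩
    show e (g k *ᵥ u) = f k *ᵥ e u
    rw [he, he, h, Matrix.mulVec_mulVec, Matrix.mulVec_mulVec]
    simp [← mul_assoc]) with h0 | h0
  · exact Or.inl (by simpa [Submodule.map_eq_bot_iff] using h0)
  · refine Or.inr (Submodule.map_injective_of_injective (f := e.toLinearMap) e.injective ?_)
    rw [h0, Submodule.map_top, LinearEquiv.range]

end Vale.Agent.P002
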