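import Vale.Agent.P002.Product.Basic

/-!
Irreducible representations of a product of two groups are tensor products, so that the twisting
property passes to products.
-/

namespace Vale.Agent.P002

open Matrix MvPolynomial
open scoped Kronecker

variable {G H : Type*} [Group G] [Group H]

/-- Translates of a minimal subspace invariant under the first factor form a basis. -/
lemma exists_translates {d : ℕ} [NeZero d] (ρ : G × H →* (Mat d)ˣ)
    (hirr : Irred fun γ => (ρ γ).val) :
    ∃ (a b : ℕ) (e : Fin b × Fin a ≃ Fin d) (N : (Mat d)ˣ) (A : G → Mat a),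
      0 < a ∧ 0 < b ∧ Irred A ∧
        ∀ g, (ρ (g, 1)).val * N.val = N.val * Matrix.reindex e e ((1 : Mat b) ⊗ₖ A g) := by
  classical
  let RG : G → Mat d := fun g => (ρ (g, 1)).val
  let RH : H → Mat d := fun h => (ρ (1, h)).val
  have hsplit : ∀ g h, (ρ (g, h)).val = RG g * RH h := fun g h => by
    show _ = (ρ (g, 1)).val * (ρ (1, h)).val
    rw [← Units.val_mul, ← map_mul, Prod.mk_mul_mk, mul_one, one_mul]
  have hcomm : ∀ g h, Commute (RG g) (RH h) := fun g h => by
    show (ρ (g, 1)).val * (ρ (1, h)).val = (ρ (1, h)).val * (ρ (g, 1)).val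
    rw [← Units.val_mul, ← Units.val_mul, ← map_mul, ← map_mul]
    simp
  -- a minimal subspace invariant under the first factor
  let InvG : Submodule ℂ (Fin d → ℂ) → Prop := fun U => ∀ g, ∀ u ∈ U, RG g *ᵥ u ∈ U
  have hex : ∃ n, ∃ U, InvG U ∧ U ≠ ⊥ ∧ Module.finrank ℂ U = n :=
    ⟨_, ⊤, fun _ _ _ => Submodule.mem_top, top_ne_bot, rfl⟩
  obtain ⟨U, hU, hU0, hUn⟩ := Nat.find_spec hex
  set a := Nat.find hex with ha_def
  have hmin : ∀ U' : Submodule ℂ (Fin d → ℂ), InvG U' → U' ≤ U → U' ≠ ⊥ → U' = U :=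
    fun U' h1 h2 h3 => Submodule.eq_of_le_of_finrank_le h2
      (hUn.le.trans (Nat.find_le ⟨U', h1, h3, rfl⟩))
  let bU := (Module.finBasisOfFinrankEq ℂ U hUn)
  have ha : 0 < a := by
    have : Nontrivial U := Submodule.nontrivial_iff_ne_bot.2 hU0
    rw [← hUn]
    exact Module.finrank_pos
  let u : Fin a → (Fin d → ℂ) := fun k => (bU k : Fin d → ℂ)
  have huU : ∀ k, u k ∈ U := fun k => (bU k).2
  have hu_expand : ∀ w (hw : w ∈ U), w = ∑ k, bU.repr ⟨w, hw⟩ k • u k := fun w hw => by
    have := congrArg Subtype.val (bU.sum_repr ⟨w, hw⟩)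
    rw [Submodule.coe_sum] at this
    exact this.symm
  -- a maximal independent family of translates
  let P : ℕ → Prop := fun b => ∃ hs : Fin b → H,
    LinearIndependent ℂ fun x : Fin b × Fin a => RH (hs x.1) *ᵥ u x.2
  have hP0 : P 0 := ⟨Fin.elim0, linearIndependent_empty_type⟩
  set b := Nat.findGreatest P d with hb_def
  obtain ⟨hs, hind⟩ : P b := Nat.findGreatest_spec (Nat.zero_le d) hP0
  set v : Fin b × Fin a → (Fin d → ℂ) := fun x => RH (hs x.1) *ᵥ u x.2 with hv_def
  have hRGv : ∀ g (x : Fin b × Fin a), RG g *ᵥ v x =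
      ∑ k, bU.repr ⟨_, hU g _ (huU x.2)⟩ k • v (x.1, k) := fun g x => by
    simp only [hv_def]
    rw [Matrix.mulVec_mulVec, (hcomm g _).eq, ← Matrix.mulVec_mulVec]
    conv_lhs => rw [hu_expand _ (hU g _ (huU x.2))]
    simp only [Matrix.mulVec_sum, Matrix.mulVec_smul]
  have hspan : Submodule.span ℂ (Set.range v) = ⊤ := by
    set W := Submodule.span ℂ (Set.range v)
    have hWG : InvG W := fun g w hw => by
      induction hw using Submodule.span_induction with
      | mem x hx =>
        obtain ⟨x, rfl⟩ := hx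
        rw [hRGv]
        exact W.sum_mem fun k _ => W.smul_mem _ (Submodule.subset_span ⟨_, rfl⟩)
      | zero => simp
      | add x y _ _ hx hy => rw [Matrix.mulVec_add]; exact add_mem hx hy
      | smul c x _ hx => rw [Matrix.mulVec_smul]; exact W.smul_mem _ hx
    by_contra hne
    obtain ⟨h, k₀, hk₀⟩ : ∃ h k, RH h *ᵥ u k ∉ W := by
      by_contra hall
      push Not at hall
      let V := Submodule.span ℂ (Set.range fun x : H × Fin a => RH x.1 *ᵥ u x.2)
      have hVW : V ≤ W := Submodule.span_le.2 (by rintro _ ⟨⟨h, k⟩, rfl⟩; exact hall h k)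
      have hVinv : ∀ γ, ∀ w ∈ V, (ρ γ).val *ᵥ w ∈ V := by
        rintro ⟨g, h⟩ w hw
        induction hw using Submodule.span_induction with
        | mem x hx =>
          obtain ⟨⟨h', k⟩, rfl⟩ := hx
          rw [Matrix.mulVec_mulVec, hsplit, mul_assoc,
            show RH h * RH h' = RH (h * h') by
              simp only [RH, ← Units.val_mul, ← map_mul, Prod.mk_mul_mk, one_mul],
            (hcomm g _).eq, ← Matrix.mulVec_mulVec, hu_expand _ (hU g _ (huU k)),
            Matrix.mulVec_sum]
          refine V.sum_mem fun k' _ => ?_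
          rw [Matrix.mulVec_smul]
          exact V.smul_mem _ (Submodule.subset_span ⟨(h * h', k'), rfl⟩)
        | zero => simp
        | add x y _ _ hx hy => rw [Matrix.mulVec_add]; exact add_mem hx hy
        | smul c x _ hx => rw [Matrix.mulVec_smul]; exact V.smul_mem _ hx
      rcases hirr V hVinv with hV | hV
      · refine hU0 (eq_bot_iff.2 fun w hw => ?_)
        rw [← hV, hu_expand w hw]
        refine V.sum_mem fun k _ => V.smul_mem _ (Submodule.subset_span ⟨(1, k), ?_⟩)
        show (ρ (1, 1)).val *ᵥ u k = u k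
        rw [show ((1 : G), (1 : H)) = 1 from rfl, map_one, Units.val_one, Matrix.one_mulVec]
      · exact hne (top_unique (hV ▸ hVW))
    let U' : Submodule ℂ (Fin d → ℂ) := U ⊓ W.comap (Matrix.toLin' (RH h))
    have hU'G : InvG U' := fun g w hw => by
      refine ⟨hU g w hw.1, ?_⟩
      show Matrix.toLin' (RH h) _ ∈ W
      rw [Matrix.toLin'_apply, Matrix.mulVec_mulVec, ← (hcomm g h).eq, ← Matrix.mulVec_mulVec]
      exact hWG g _ (by simpa using hw.2)
    have hU' : U' = ⊥ := by
      by_contra h0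
      have hmem : u k₀ ∈ U' := (hmin U' hU'G inf_le_left h0).symm ▸ huU k₀
      exact hk₀ (by simpa using hmem.2)
    have hnew : LinearIndependent ℂ fun x : Fin (b + 1) × Fin a =>
        RH ((Fin.cons h hs : Fin (b + 1) → H) x.1) *ᵥ u x.2 := by
      rw [Fintype.linearIndependent_iff]
      intro c hc
      rw [Fintype.sum_prod_type, Fin.sum_univ_succ] at hc
      simp only [Fin.cons_zero, Fin.cons_succ] at hc
      set w₀ := ∑ k, c (0, k) • u k
      have hh0 : ∑ k, c (0, k) • RH h *ᵥ u k = RH h *ᵥ w₀ := by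
        simp only [w₀, Matrix.mulVec_sum, Matrix.mulVec_smul]
      have hw₀ : w₀ = 0 := by
        have hmem : w₀ ∈ U' := by
          refine ⟨U.sum_mem fun k _ => U.smul_mem _ (huU k), ?_⟩
          show Matrix.toLin' (RH h) _ ∈ W
          rw [Matrix.toLin'_apply, ← hh0, eq_neg_of_add_eq_zero_left hc]
          refine W.neg_mem (W.sum_mem fun l _ => W.sum_mem fun k _ => W.smul_mem _ ?_)
          exact Submodule.subset_span ⟨(l, k), rfl⟩
        rw [hU'] at hmem
        simpa using hmem
      have hc0 : ∀ k, c (0, k) = 0 := fun k => by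
        have h1 : ∑ k, c (0, k) • bU k = 0 := Subtype.ext (by simpa [w₀, u] using hw₀)
        exact Fintype.linearIndependent_iff.1 bU.linearIndependent _ h1 k
      rw [hh0, hw₀, Matrix.mulVec_zero, zero_add] at hc
      have hc1 : ∑ x : Fin b × Fin a, c (x.1.succ, x.2) • v x = 0 := by
        rw [Fintype.sum_prod_type]; exact hc
      rintro ⟨l, k⟩
      induction l using Fin.cases with
      | zero => exact hc0 k
      | succ l => exact Fintype.linearIndependent_iff.1 hind _ hc1 (l, k)
    have hle : (b + 1) * a ≤ d := by simpa using hnew.fintype_card_le_finrank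
    have : b + 1 ≤ d := le_trans (Nat.le_mul_of_pos_right _ ha) hle
    exact absurd (Nat.le_findGreatest (P := P) this ⟨Fin.cons h hs, hnew⟩)
      (by rw [← hb_def]; omega)
  have hcard : Fintype.card (Fin b × Fin a) = d := by
    rw [← finrank_span_eq_card hind, hspan, finrank_top, Module.finrank_fintype_fun_eq_card,
      Fintype.card_fin]
  have hb : 0 < b := by
    rcases Nat.eq_zero_or_pos b with h0 | h0
    · rw [Fintype.card_prod, Fintype.card_fin, Fintype.card_fin, h0, zero_mul] at hcard
      exact absurd hcard.symm (NeZero.ne d)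
    · exact h0
  let e : Fin b × Fin a ≃ Fin d := Fintype.equivFinOfCardEq hcard
  let N0 : Mat d := Matrix.of fun p q => v (e.symm q) p
  have hN0 : IsUnit N0 := by
    rw [← Matrix.linearIndependent_cols_iff_isUnit]
    exact hind.comp e.symm e.symm.injective
  let A0 : G → Mat a := fun g => Matrix.of fun k k' => bU.repr ⟨_, hU g _ (huU k')⟩ k
  refine ⟨a, b, e, hN0.unit, A0, ha, hb, ?_, fun g => ?_⟩
  · intro U₁ hU₁
    let L : (Fin a → ℂ) →ₗ[ℂ] (Fin d → ℂ) := U.subtype ∘ₗ bU.equivFun.symm.toLinearMap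
    have hL : ∀ c, L c = ∑ k, c k • u k := fun c => by
      show ((bU.equivFun.symm c : U) : Fin d → ℂ) = _
      rw [Module.Basis.equivFun_symm_apply, Submodule.coe_sum]
      rfl
    have hinj : Function.Injective L := Subtype.val_injective.comp bU.equivFun.symm.injective
    have hinvG : InvG (U₁.map L) := fun g w hw => by
      obtain ⟨c, hc, rfl⟩ := Submodule.mem_map.1 hw
      refine Submodule.mem_map.2 ⟨A0 g *ᵥ c, hU₁ g c hc, ?_⟩
      have hk : ∀ k, RG g *ᵥ u k = ∑ k', A0 g k' k • u k' := fun k =>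
        hu_expand _ (hU g _ (huU k))
      simp only [hL, Matrix.mulVec_sum, Matrix.mulVec_smul, hk, Finset.smul_sum, smul_smul]
      rw [Finset.sum_comm]
      refine Finset.sum_congr rfl fun k _ => ?_
      simp only [Matrix.mulVec, dotProduct, Finset.sum_smul, mul_comm]
    have hle : U₁.map L ≤ U := by
      rintro _ ⟨c, -, rfl⟩
      exact (bU.equivFun.symm c).2
    by_cases h0 : U₁.map L = ⊥
    · refine Or.inl (eq_bot_iff.2 fun c hc => ?_)
      have : L c ∈ U₁.map L := Submodule.mem_map_of_mem hc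
      rw [h0, Submodule.mem_bot] at this
      rw [Submodule.mem_bot]
      exact hinj (this.trans (map_zero L).symm)
    · refine Or.inr (Submodule.map_injective_of_injective hinj ?_)
      rw [hmin _ hinvG hle h0, Submodule.map_top, LinearMap.range_comp, LinearEquiv.range,
        Submodule.map_top, Submodule.range_subtype]
  · show RG g * N0 = N0 * _
    ext p q
    have h2 := congrFun (hRGv g (e.symm q)) p
    rw [Finset.sum_apply] at h2
    refine h2.trans ?_
    rw [Matrix.mul_apply, ← e.sum_comp, Fintype.sum_prod_type,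
      Finset.sum_eq_single (e.symm q).1]
    · exact Finset.sum_congr rfl fun k _ => by
        simp only [N0, A0, Matrix.of_apply, Matrix.reindex_apply, Matrix.submatrix_apply,
          Equiv.symm_apply_apply, Matrix.kroneckerMap_apply, Matrix.one_apply_eq, one_mul,
          Pi.smul_apply, smul_eq_mul]
        exact mul_comm _ _
    · intro l _ hl
      exact Finset.sum_eq_zero fun k _ => by
        simp only [Matrix.reindex_apply, Matrix.submatrix_apply, Equiv.symm_apply_apply,
          Matrix.kroneckerMap_apply, Matrix.one_apply_ne hl, zero_mul, mul_zero]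
    · simp

/-- Matrices commuting with an irreducible tensor factor act through the other factor. -/
lemma eq_kronecker_one {a b : ℕ} [NeZero a] {κ : Type*} {A : κ → Mat a} (hA : Irred A)
    (Z : Matrix (Fin b × Fin a) (Fin b × Fin a) ℂ)
    (hZ : ∀ k, Commute ((1 : Mat b) ⊗ₖ A k) Z) :
    ∃ B : Mat b, Z = B ⊗ₖ (1 : Mat a) := by
  refine ⟨Matrix.of fun l l' => Z (l, 0) (l', 0), ?_⟩
  ext ⟨l, i⟩ ⟨l', j⟩
  obtain ⟨c, hc⟩ := hA.full.triv (Matrix.of fun i j => Z (l, i) (l', j)) fun g => by
    show _ = _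
    ext i j
    have := congrFun (congrFun (hZ g).eq (l, i)) (l', j)
    simpa [Matrix.mul_apply, Fintype.sum_prod_type, Matrix.one_apply] using this
  have e1 : ∀ i j, Z (l, i) (l', j) = c * (1 : Mat a) i j := fun i j =>
    congrFun (congrFun hc i) j
  simp [e1]

/-- The second tensor factor of an irreducible family is irreducible. -/
lemma irred_left {a b d : ℕ} [NeZero a] {κ κ' : Type*} (e : Fin b × Fin a ≃ Fin d) {A : κ → Mat a}
    {B : κ' → Mat b}
    (h : Irred fun v : κ × κ' => Matrix.reindex e e (B v.2 ⊗ₖ A v.1)) : Irred B := by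
  intro U₁ hU₁
  let V : Submodule ℂ (Fin d → ℂ) :=
    { carrier := {w | ∀ k, (fun l => w (e (l, k))) ∈ U₁}
      zero_mem' := fun k => U₁.zero_mem
      add_mem' := fun hx hy k => U₁.add_mem (hx k) (hy k)
      smul_mem' := fun c _ hx k => U₁.smul_mem c (hx k) }
  have hV : ∀ v : κ × κ', ∀ w ∈ V, Matrix.reindex e e (B v.2 ⊗ₖ A v.1) *ᵥ w ∈ V := by
    intro v w hw k
    have hrw : (fun l => (Matrix.reindex e e (B v.2 ⊗ₖ A v.1) *ᵥ w) (e (l, k))) =
        ∑ k', A v.1 k k' • (B v.2 *ᵥ fun l' => w (e (l', k'))) := by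
      funext l
      simp only [Matrix.mulVec, dotProduct, Finset.sum_apply, Pi.smul_apply, smul_eq_mul,
        Finset.mul_sum]
      rw [← e.sum_comp, Fintype.sum_prod_type, Finset.sum_comm]
      simp only [Matrix.reindex_apply, Matrix.submatrix_apply, Equiv.symm_apply_apply,
        Matrix.kroneckerMap_apply]
      exact Finset.sum_congr rfl fun _ _ => Finset.sum_congr rfl fun _ _ => by ring
    rw [hrw]
    exact U₁.sum_mem fun k' _ => U₁.smul_mem _ (hU₁ _ _ (hw k'))
  have hmem : ∀ x ∈ U₁, (fun q => x (e.symm q).1) ∈ V := fun x hx k => by simpa using hx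
  rcases h V hV with h0 | h0
  · refine Or.inl (eq_bot_iff.2 fun x hx => ?_)
    have hx' := hmem x hx
    rw [h0, Submodule.mem_bot] at hx'
    rw [Submodule.mem_bot]
    funext l
    simpa using congrFun hx' (e (l, 0))
  · refine Or.inr (top_unique fun x _ => ?_)
    have : (fun q => x (e.symm q).1) ∈ V := h0 ▸ Submodule.mem_top
    simpa using this 0

/-- An irreducible representation of a product is conjugate to a tensor product of irreducible
representations. -/
lemma exists_tensor {d : ℕ} [NeZero d] (ρ : G × H →* (Mat d)ˣ)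
    (hirr : Irred fun γ => (ρ γ).val) :
    ∃ (a b : ℕ) (e : Fin b × Fin a ≃ Fin d) (N : (Mat d)ˣ) (A : G →* (Mat a)ˣ)
      (B : H →* (Mat b)ˣ), 0 < a ∧ 0 < b ∧ Irred (fun g => (A g).val) ∧
      Irred (fun h => (B h).val) ∧
      ∀ g h, (ρ (g, h)).val =
        N.val * Matrix.reindex e e ((B h).val ⊗ₖ (A g).val) * N⁻¹.val := by
  obtain ⟨a, b, e, N, A0, ha, hb, hA, hN⟩ := exists_translates ρ hirr
  have : NeZero a := ⟨ha.ne'⟩
  have : NeZero b := ⟨hb.ne'⟩
  let S := Matrix.reindexAlgEquiv ℂ ℂ e
  let Y : G × H →* Matrix (Fin b × Fin a) (Fin b × Fin a) ℂ :=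
    S.symm.toMonoidHom.comp ((Units.coeHom (Mat d)).comp
      ((MulAut.conj N⁻¹).toMonoidHom.comp ρ))
  have hY0 : ∀ γ, Y γ = S.symm (N⁻¹.val * (ρ γ).val * N.val) := fun γ => by simp [Y]
  have hρY : ∀ γ, (ρ γ).val = N.val * S (Y γ) * N⁻¹.val := fun γ => by
    simp [hY0, ← mul_assoc]
  have hYG : ∀ g, Y (g, 1) = (1 : Mat b) ⊗ₖ A0 g := fun g => by
    rw [hY0, mul_assoc, hN, ← mul_assoc, Units.inv_mul, one_mul]
    exact S.symm_apply_apply _
  choose B0 hYH using fun h => eq_kronecker_one hA (Y (1, h)) fun g => by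
    rw [← hYG]
    show _ = _
    rw [← map_mul, ← map_mul]
    simp
  have h1 : (1 : G × H) = (1, 1) := rfl
  let Am : G →* Mat a :=
    { toFun := A0
      map_one' := by
        ext k k'
        have := congrFun (congrFun ((hYG 1).symm.trans (h1 ▸ Y.map_one)) (0, k)) (0, k')
        simpa [Matrix.one_apply] using this
      map_mul' := fun g g' => by
        have h2 : Y (g * g', 1) = Y (g, 1) * Y (g', 1) := by rw [← map_mul]; simp
        rw [hYG, hYG, hYG, ← Matrix.mul_kronecker_mul, mul_one] at h2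
        ext k k'
        simpa using congrFun (congrFun h2 (0, k)) (0, k') }
  let Bm : H →* Mat b :=
    { toFun := B0
      map_one' := by
        ext l l'
        have := congrFun (congrFun ((hYH 1).symm.trans (h1 ▸ Y.map_one)) (l, 0)) (l', 0)
        simpa [Matrix.one_apply] using this
      map_mul' := fun h h' => by
        have h2 : Y (1, h * h') = Y (1, h) * Y (1, h') := by rw [← map_mul]; simp
        rw [hYH, hYH, hYH, ← Matrix.mul_kronecker_mul, mul_one] at h2
        ext l l'
        simpa using congrFun (congrFun h2 (l, 0)) (l', 0) }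
  have hY : ∀ g h, Y (g, h) = B0 h ⊗ₖ A0 g := fun g h => by
    rw [show (g, h) = (g, 1) * (1, h) by simp, map_mul, hYG, hYH, ← Matrix.mul_kronecker_mul,
      one_mul, mul_one]
  have hB : Irred B0 := irred_left e (A := A0) <| irred_conj N hirr fun γ => by
    rw [hρY, hY]
    simp [S, ← mul_assoc]
  refine ⟨a, b, e, N, Am.toHomUnits, Bm.toHomUnits, ha, hb, hA, hB, fun g h => ?_⟩
  rw [hρY, hY]
  rfl

/-- The Kronecker product of special linear matrices. -/
noncomputable def kronSL {R : Type*} [CommRing R] {a b d : ℕ} (e : Fin b × Fin a ≃ Fin d) :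
    Matrix.SpecialLinearGroup (Fin b) R × Matrix.SpecialLinearGroup (Fin a) R →*
      Matrix.SpecialLinearGroup (Fin d) R where
  toFun x := ⟨Matrix.reindex e e (x.1.val ⊗ₖ x.2.val), by
    rw [Matrix.det_reindex_self, Matrix.det_kronecker, x.1.2, x.2.2, one_pow, one_pow, one_mul]⟩
  map_one' := Subtype.ext <| by simp
  map_mul' x y := Subtype.ext <| by
    show Matrix.reindex e e _ = Matrix.reindex e e _ * Matrix.reindex e e _
    rw [Matrix.reindex_apply, Matrix.reindex_apply, Matrix.reindex_apply,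
      Matrix.submatrix_mul_equiv, ← Matrix.mul_kronecker_mul]
    rfl

/-- The twisting property passes to products. -/
theorem Twisted.prod (hG : Twisted G) (hH : Twisted H) : Twisted (G × H) := by
  intro d _ ρ hirr
  obtain ⟨a, b, e, N, A, B, ha, hb, hA, hB, hρ⟩ := exists_tensor ρ hirr
  have : NeZero a := ⟨ha.ne'⟩
  have : NeZero b := ⟨hb.ne'⟩
  obtain ⟨χA, σA, MA, hσA, hA'⟩ := hG a A hA
  obtain ⟨χB, σB, MB, hσB, hB'⟩ := hH b B hB
  let S := Matrix.reindexAlgEquiv ℂ ℂ e
  let K : (Mat d)ˣ :=
    ⟨S (MB.val ⊗ₖ MA.val), S (MB⁻¹.val ⊗ₖ MA⁻¹.val),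
      by rw [← map_mul, ← Matrix.mul_kronecker_mul, Units.mul_inv, Units.mul_inv,
        Matrix.one_kronecker_one, map_one],
      by rw [← map_mul, ← Matrix.mul_kronecker_mul, Units.inv_mul, Units.inv_mul,
        Matrix.one_kronecker_one, map_one]⟩
  refine ⟨χA.comp (MonoidHom.fst G H) * χB.comp (MonoidHom.snd G H),
    (kronSL e).comp ((σB.comp (MonoidHom.snd G H)).prod (σA.comp (MonoidHom.fst G H))),
    N * K, ?_, fun γ => ?_⟩
  · let q : (G × H) × Fin d × Fin d →
        MvPolynomial ((H × Fin b × Fin b) ⊕ (G × Fin a × Fin a)) ℂ := fun v =>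
      X (Sum.inl (v.1.2, (e.symm v.2.1).1, (e.symm v.2.2).1)) *
        X (Sum.inr (v.1.1, (e.symm v.2.1).2, (e.symm v.2.2).2))
    have h := polyCl_map q (T := intHom (G × H) d) (fun y hy => ?_) (polyCl_sum hσB hσA)
    · convert h using 1
      funext v
      simp only [q, map_mul, eval_X, Sum.elim_inl, Sum.elim_inr]
      rfl
    · obtain ⟨_, ⟨τB, rfl⟩, _, ⟨τA, rfl⟩, rfl⟩ := hy
      refine subset_polyCl _ ⟨(kronSL e).comp
        ((τB.comp (MonoidHom.snd G H)).prod (τA.comp (MonoidHom.fst G H))), ?_⟩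
      funext v
      simp only [q, map_mul, eval_X, Sum.elim_inl, Sum.elim_inr]
      exact (Int.cast_mul _ _).symm
  · obtain ⟨g, h⟩ := γ
    rw [hρ, hA', hB', Matrix.smul_kronecker, Matrix.kronecker_smul, smul_smul,
      Matrix.mul_kronecker_mul, Matrix.mul_kronecker_mul]
    show N.val * S ((_ : ℂ) • _) * N⁻¹.val = _
    rw [map_smul, map_mul, map_mul, mul_smul_comm, smul_mul_assoc]
    simp only [MonoidHom.mul_apply, MonoidHom.coe_comp, Function.comp_apply, MonoidHom.coe_fst,
      MonoidHom.coe_snd, Units.val_mul, _root_.mul_inv_rev, mul_comm (χB h : ℂ), mul_assoc]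
    rfl

end Vale.Agent.P002
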