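import Vale.Agent.P002.Product.Basic

/-!
Conjugation invariant polynomials take the same value at a homomorphism and at a block diagonal one
with irreducible blocks.
-/

namespace Vale.Agent.P002

open Matrix MvPolynomial

variable {r k : ℕ} {Γ : Type*} [Group Γ]

/-- Invariance under simultaneous conjugation, on homomorphisms. -/
def HConjInv (P : MvPolynomial (Γ × Fin r × Fin r) ℂ) : Prop :=
  ∀ (h : SLC r) (τ : Γ →* SLC r),
    eval (hcoord fun γ => h * τ γ * h⁻¹) P = eval (hcoord τ) P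

lemma HConjInv.conjU [NeZero r] {P : MvPolynomial (Γ × Fin r × Fin r) ℂ} (hP : HConjInv P)
    (U : (Mat r)ˣ) (τ : Γ →* SLC r) :
    eval (hcoord ((P002.conjU U).comp τ)) P = eval (hcoord τ) P := by
  have hU : U.val.det ≠ 0 := ((Matrix.isUnit_iff_isUnit_det _).1 U.isUnit).ne_zero
  obtain ⟨c, hc⟩ := IsAlgClosed.exists_pow_nat_eq U.val.det⁻¹ (Nat.pos_of_neZero r)
  have hc0 : c ≠ 0 := fun e => by
    rw [e, zero_pow (NeZero.ne r)] at hc
    exact inv_ne_zero hU hc.symm
  let h : SLC r := ⟨c • U.val, by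
    rw [Matrix.det_smul, Fintype.card_fin, hc, inv_mul_cancel₀ hU]⟩
  have hh : h⁻¹.val = c⁻¹ • U⁻¹.val := by
    rw [coe_inv_SL]
    refine Matrix.inv_eq_left_inv ?_
    rw [show h.val = c • U.val from rfl, smul_mul_assoc, mul_smul_comm, smul_smul,
      inv_mul_cancel₀ hc0, one_smul, Units.inv_mul]
  rw [← hP h τ]
  refine congrArg (fun x => eval x P) (funext fun v => ?_)
  simp only [hcoord, MonoidHom.coe_comp, Function.comp_apply, conjU_val,
    Matrix.SpecialLinearGroup.coe_mul, hh]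
  rw [show h.val = c • U.val from rfl]
  simp only [smul_mul_assoc, mul_smul_comm, smul_smul, inv_mul_cancel₀ hc0, one_smul]

lemma scaleS_zero_mul {S : Finset (Fin r)} {g h : Mat r} (hg : Tri S g) (hh : Tri S h) :
    scaleS S 0 (g * h) = scaleS S 0 g * scaleS S 0 h := by
  ext a b
  simp only [scaleS, Matrix.of_apply, Matrix.mul_apply, zero_mul]
  split_ifs with hab
  · refine (Finset.sum_eq_zero fun c _ => ?_).symm
    by_cases hc : c ∈ S <;> simp [hab.1, hab.2, hc]
  · refine Finset.sum_congr rfl fun c _ => ?_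
    by_cases h1 : a ∈ S ∧ c ∉ S
    · rw [if_pos h1, zero_mul, hh c b h1.2 (not_not.1 fun hb => hab ⟨h1.1, hb⟩), mul_zero]
    by_cases h2 : c ∈ S ∧ b ∉ S
    · rw [if_pos h2, mul_zero, hg a c (fun ha => hab ⟨ha, h2.2⟩) h2.1, zero_mul]
    · rw [if_neg h1, if_neg h2]

/-- Triangular homomorphisms have the invariants of their block diagonal parts. -/
lemma torus_limit_hom [NeZero r] {P : MvPolynomial (Γ × Fin r × Fin r) ℂ} (hP : HConjInv P)
    (S : Finset (Fin r)) {ρ : Γ →* SLC r} (hT : ∀ γ, Tri S (ρ γ).val) :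
    ∃ ρ' : Γ →* SLC r, (∀ γ, (ρ' γ).val = scaleS S 0 (ρ γ).val) ∧
      eval (hcoord ρ') P = eval (hcoord ρ) P := by
  let ρ' : Γ →* SLC r :=
    { toFun := fun γ => ⟨scaleS S 0 (ρ γ).val, det_scaleS S 0 (hT γ)⟩
      map_one' := Subtype.ext <| by
        show scaleS S 0 (ρ 1).val = 1
        ext a b
        simp only [scaleS, Matrix.of_apply, map_one, Matrix.SpecialLinearGroup.coe_one, zero_mul]
        split_ifs with h
        · rw [Matrix.one_apply_ne fun e : a = b => h.2 (e ▸ h.1)]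
        · rfl
      map_mul' := fun γ δ => Subtype.ext <| by
        show scaleS S 0 (ρ (γ * δ)).val = scaleS S 0 (ρ γ).val * scaleS S 0 (ρ δ).val
        rw [map_mul, Matrix.SpecialLinearGroup.coe_mul, scaleS_zero_mul (hT γ) (hT δ)] }
  refine ⟨ρ', fun γ => rfl, ?_⟩
  let q : Γ × Fin r × Fin r → Polynomial ℂ := fun v =>
    if v.2.1 ∈ S ∧ v.2.2 ∉ S then Polynomial.X * Polynomial.C ((ρ v.1).val v.2.1 v.2.2)
    else Polynomial.C ((ρ v.1).val v.2.1 v.2.2)
  let f : Polynomial ℂ := MvPolynomial.aeval q P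
  have hf : ∀ s : ℂ, f.eval s = eval (fun v => scaleS S s (ρ v.1).val v.2.1 v.2.2) P := by
    intro s
    rw [← Polynomial.coe_aeval_eq_eval]
    simp only [f]
    rw [← AlgHom.comp_apply, MvPolynomial.comp_aeval, ← MvPolynomial.aeval_eq_eval]
    refine congrArg (fun g => MvPolynomial.aeval g P) (funext fun v => ?_)
    simp only [q, scaleS, Matrix.of_apply]
    split_ifs <;> simp only [map_mul, Polynomial.aeval_X, Polynomial.aeval_C, Algebra.algebraMap_self_apply]
  have hfc : f = Polynomial.C (eval (hcoord ρ) P) := by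
    refine Polynomial.eq_of_infinite_eval_eq _ _
      (Set.Infinite.mono (fun s hs => ?_) (Set.finite_singleton (0 : ℂ)).infinite_compl)
    have hs0 : s ≠ 0 := hs
    show f.eval s = _
    rw [hf, Polynomial.eval_C, ← hP.conjU (torU S s hs0) ρ]
    refine congrArg (fun x => eval x P) (funext fun v => ?_)
    simp only [hcoord, MonoidHom.coe_comp, Function.comp_apply, conjU_val,
      scaleS_eq S hs0 (hT v.1)]
  have h0 := hf 0
  rw [hfc, Polynomial.eval_C] at h0
  exact h0.symm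

/-- Irreducible blocks. -/
def HIrredBlocks (blk : Fin r → Fin k) (ρ : Γ →* SLC r) : Prop :=
  ∀ (j : Fin k) (U : Submodule ℂ (Fin r → ℂ)), U ≠ ⊥ →
    (∀ u ∈ U, ∀ a, blk a ≠ j → u a = 0) → (∀ γ, ∀ u ∈ U, (ρ γ).val *ᵥ u ∈ U) →
    ∀ w : Fin r → ℂ, (∀ a, blk a ≠ j → w a = 0) → w ∈ U

/-- A block with a proper invariant subspace splits into two blocks. -/
lemma refine_hom [NeZero r] {P : MvPolynomial (Γ × Fin r × Fin r) ℂ} (hP : HConjInv P)
    {blk : Fin r → Fin k} (hsurj : Function.Surjective blk) {σ : Γ →* SLC r}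
    (hBD : ∀ γ, BD blk (σ γ).val) {j : Fin k} {U : Submodule ℂ (Fin r → ℂ)} (hU0 : U ≠ ⊥)
    (hsupp : ∀ u ∈ U, ∀ a, blk a ≠ j → u a = 0)
    (hlt : ∃ w : Fin r → ℂ, (∀ a, blk a ≠ j → w a = 0) ∧ w ∉ U)
    (hinv : ∀ γ, ∀ u ∈ U, (σ γ).val *ᵥ u ∈ U) :
    ∃ blk' : Fin r → Fin (k + 1), Function.Surjective blk' ∧ ∃ σ' : Γ →* SLC r,
      (∀ γ, BD blk' (σ' γ).val) ∧ eval (hcoord σ') P = eval (hcoord σ) P := by
  classical
  obtain ⟨M, T, hTne, hTj, ⟨a₀, ha₀, ha₀T⟩, hM, hMU, hUM⟩ := exists_adapted hU0 hsupp hlt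
  set ρ := (P002.conjU M⁻¹).comp σ with hρdef
  have hg : ∀ γ, (ρ γ).val = M⁻¹.val * (σ γ).val * M.val := fun γ => by
    rw [hρdef, MonoidHom.comp_apply, conjU_val, inv_inv]
  have hρBD : ∀ γ, BD blk (ρ γ).val := fun γ => by
    rw [hg]; exact ((hM.inv).mul (hBD γ)).mul hM
  have hTri : ∀ γ, Tri T (ρ γ).val := fun γ a b ha hb => by
    obtain ⟨y, hy, hyv⟩ := hUM _ (hinv γ _ (hMU b hb))
    have h1 : (ρ γ).val *ᵥ Pi.single b 1 = y := by
      rw [hg, ← Matrix.mulVec_mulVec, ← Matrix.mulVec_mulVec, ← hyv, Matrix.mulVec_mulVec,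
        M.inv_mul, Matrix.one_mulVec]
    have h2 := congrFun h1 a
    rw [Matrix.mulVec_single_one, hy a ha] at h2
    exact h2
  obtain ⟨σ', hg', hev⟩ := torus_limit_hom hP T hTri
  refine ⟨fun a => if a ∈ T then Fin.last k else (blk a).castSucc, fun i => ?_, σ',
    fun γ a b hab => ?_, by rw [hev, hρdef, hP.conjU]⟩
  · induction i using Fin.lastCases with
    | last => exact ⟨hTne.choose, if_pos hTne.choose_spec⟩
    | cast i =>
      by_cases hij : i = j
      · exact ⟨a₀, by simp only [if_neg ha₀T, ha₀, hij]⟩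
      · obtain ⟨a, ha⟩ := hsurj i
        refine ⟨a, ?_⟩
        simp only [if_neg fun h => hij (ha.symm.trans (mem_blkSet.1 (hTj h))), ha]
  · rw [hg', scaleS, Matrix.of_apply]
    by_cases ha : a ∈ T <;> by_cases hb : b ∈ T
    · exact absurd (by simp [ha, hb]) hab
    · simp [ha, hb]
    · simp [ha, hb, hTri γ a b ha hb]
    · simp only [ha, hb, if_false, false_and]
      exact hρBD γ a b fun h => hab (by simp [ha, hb, h])

lemma refine_hom_rec [NeZero r] {P : MvPolynomial (Γ × Fin r × Fin r) ℂ} (hP : HConjInv P)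
    (d : ℕ) : ∀ (k : ℕ) (blk : Fin r → Fin k), r - k = d → Function.Surjective blk →
      ∀ ρ : Γ →* SLC r, (∀ γ, BD blk (ρ γ).val) →
        ∃ (k' : ℕ) (blk' : Fin r → Fin k') (ρ' : Γ →* SLC r), Function.Surjective blk' ∧
          (∀ γ, BD blk' (ρ' γ).val) ∧ HIrredBlocks blk' ρ' ∧
          eval (hcoord ρ') P = eval (hcoord ρ) P := by
  induction d using Nat.strong_induction_on with
  | _ d ih =>
    intro k blk hd hsurj ρ hBD
    by_cases hirr : HIrredBlocks blk ρ
    · exact ⟨k, blk, ρ, hsurj, hBD, hirr, rfl⟩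
    simp only [HIrredBlocks, not_forall] at hirr
    obtain ⟨j, U, hU0, hsupp, hinv, w, hw, hwU⟩ := hirr
    obtain ⟨blk', hsurj', ρ', hBD', he⟩ := refine_hom hP hsurj hBD hU0 hsupp ⟨w, hw, hwU⟩ hinv
    have := card_le_of_surjective hsurj'
    rw [← he]
    exact ih (r - (k + 1)) (by omega) (k + 1) blk' rfl hsurj' ρ' hBD'

/-- The representation on a block. -/
noncomputable def blockRep {blk : Fin r → Fin k} (ρ : Γ →* SLC r)
    (hBD : ∀ γ, BD blk (ρ γ).val) (j : Fin k) : Γ →* (Mat (bsz blk j))ˣ :=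
  MonoidHom.toHomUnits
    { toFun := fun γ => bproj blk (ρ γ).val j
      map_one' := by
        rw [map_one, Matrix.SpecialLinearGroup.coe_one]
        exact (Matrix.submatrix_one _ ((bE blk).injective.comp sigma_mk_injective))
      map_mul' := fun γ δ => by
        conv_lhs => rw [map_mul, Matrix.SpecialLinearGroup.coe_mul, ← bdiag_bproj (hBD γ),
          ← bdiag_bproj (hBD δ), ← bdiag_mul]
        rw [bproj_bdiag, Pi.mul_apply] }

lemma irred_blockRep {blk : Fin r → Fin k} {ρ : Γ →* SLC r} (hBD : ∀ γ, BD blk (ρ γ).val)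
    (hirr : HIrredBlocks blk ρ) (j : Fin k) :
    Irred fun γ => (blockRep ρ hBD j γ).val := by
  intro U hU
  by_cases h0 : U = ⊥
  · exact Or.inl h0
  obtain ⟨u, hu, hu0⟩ := Submodule.exists_mem_ne_zero_of_ne_bot h0
  refine Or.inr (eq_top_iff.2 fun x _ => ?_)
  have hsupp : ∀ x a, blk a ≠ j → bincl blk j x a = 0 := fun x a ha => by
    show dite _ _ _ = _
    rw [dif_neg ha]
  have hinj : Function.Injective (bincl blk j) := fun x y h => funext fun p => by
    rw [← bincl_bE blk j x p, ← bincl_bE blk j y p, h]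
  have hmem := hirr j (U.map (bincl blk j)) (fun e => hu0 (hinj (by
      rw [map_zero, ← Submodule.mem_bot ℂ, ← e]
      exact Submodule.mem_map_of_mem hu)))
    (by rintro _ ⟨y, -, rfl⟩; exact hsupp y)
    (by
      rintro γ _ ⟨y, hy, rfl⟩
      rw [mulVec_bincl (hBD γ)]
      exact Submodule.mem_map_of_mem (hU γ y hy))
    (bincl blk j x) (hsupp x)
  obtain ⟨y, hy, hyx⟩ := hmem
  rwa [← hinj hyx]

end Vale.Agent.P002
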