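import Vale.Agent.P002.Product.Basic

/-!
Fundamental groups of smooth curves: irreducible representations are twists of special linear ones
in the closure of the integral ones, and characters are given by exponents of finitely many
generators.
-/

namespace Vale.Agent.P002

open Matrix MvPolynomial
open scoped commutatorElement

/-- The generators of the fundamental group of a curve of genus `g` with `s` punctures. -/
abbrev CGen (g s : ℕ) := (Fin g × Bool) ⊕ Fin s

/-- The relation. -/
def curveRel {G : Type*} [Group G] {g s : ℕ} (f : CGen g s → G) : G :=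
  (List.ofFn fun i => f (.inl (i, false)) * f (.inl (i, true)) * (f (.inl (i, false)))⁻¹ *
    (f (.inl (i, true)))⁻¹).prod * (List.ofFn fun j => f (.inr j)).prod

lemma map_curveRel {G H : Type*} [Group G] [Group H] (φ : G →* H) {g s : ℕ} (f : CGen g s → G) :
    φ (curveRel f) = curveRel fun v => φ (f v) := by
  simp [curveRel, map_list_prod, List.map_ofFn, Function.comp_def]

/-- The fundamental group. -/
abbrev CGrp (g s : ℕ) := PresentedGroup ({curveRel FreeGroup.of} : Set (FreeGroup (CGen g s)))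

/-- The homomorphism attached to generators satisfying the relation. -/
def curveHom {G : Type*} [Group G] {g s : ℕ} (f : CGen g s → G) (hf : curveRel f = 1) :
    CGrp g s →* G :=
  PresentedGroup.toGroup (f := f) fun r hr => by
    rw [Set.mem_singleton_iff.1 hr, map_curveRel]
    simpa using hf

@[simp] lemma curveHom_of {G : Type*} [Group G] {g s : ℕ} (f : CGen g s → G) (hf : curveRel f = 1)
    (v : CGen g s) : curveHom f hf (PresentedGroup.of v) = f v :=
  PresentedGroup.toGroup.of _

lemma curveRel_hom {G : Type*} [Group G] {g s : ℕ} (φ : CGrp g s →* G) :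
    (curveRel fun v => φ (PresentedGroup.of v)) = 1 := by
  have h : PresentedGroup.mk _ (curveRel FreeGroup.of) = (1 : CGrp g s) :=
    PresentedGroup.one_of_mem rfl
  rw [map_curveRel] at h
  exact ((map_curveRel φ _).symm.trans (congrArg φ h)).trans (map_one φ)

section Punctured

variable {g s : ℕ} {G : Type*} [Group G]

/-- All generators but the last puncture. -/
def keep : CGen g s → CGen g (s + 1) := Sum.elim Sum.inl fun j => Sum.inr j.castSucc

/-- Complete a free tuple by the last puncture. -/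
def extP (f : CGen g s → G) : CGen g (s + 1) → G :=
  Sum.elim (fun v => f (.inl v)) (Fin.snoc (fun j => f (.inr j)) (curveRel f)⁻¹)

lemma extP_keep (f : CGen g s → G) (v : CGen g s) : extP f (keep v) = f v := by
  rcases v with v | j <;> simp [extP, keep]

lemma curveRel_succ (f : CGen g (s + 1) → G) :
    curveRel f = (curveRel fun v => f (keep v)) * f (.inr (Fin.last s)) := by
  simp only [curveRel, keep]
  rw [List.ofFn_succ' (fun j => f (Sum.inr j))]
  simp [List.concat_eq_append, mul_assoc]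

lemma curveRel_extP (f : CGen g s → G) : curveRel (extP f) = 1 := by
  rw [curveRel_succ]
  simp only [extP_keep]
  simp [extP]

/-- Homomorphisms agreeing on all generators but the last puncture are equal. -/
lemma hom_ext_keep {φ ψ : CGrp g (s + 1) →* G}
    (h : ∀ v, φ (PresentedGroup.of (keep v)) = ψ (PresentedGroup.of (keep v))) : φ = ψ := by
  refine PresentedGroup.ext fun x => ?_
  rcases x with x | j
  · exact h (.inl x)
  induction j using Fin.lastCases with
  | cast j => exact h (.inr j)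
  | last =>
    have h1 := curveRel_hom φ
    have h2 := curveRel_hom ψ
    rw [curveRel_succ] at h1 h2
    simp only [h] at h1
    exact mul_left_cancel (h1.trans h2.symm)

end Punctured

variable {Γ : Type*} [Group Γ] {d : ℕ}

/-- Entries at every group element are polynomial in coordinates as soon as they are so on
generators. -/
lemma polyMap_of_gens {X ι : Type*} (c : X → ι → ℂ) (φ : X → Γ →* SLC d) {S : Set Γ}
    (hS : Subgroup.closure S = ⊤)
    (h : ∀ γ ∈ S, ∃ Q : Matrix (Fin d) (Fin d) (MvPolynomial ι ℂ),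
      ∀ x, (φ x γ).val = (eval (c x)).mapMatrix Q) (γ : Γ) :
    ∃ Q : Matrix (Fin d) (Fin d) (MvPolynomial ι ℂ),
      ∀ x, (φ x γ).val = (eval (c x)).mapMatrix Q := by
  have hγ : γ ∈ Subgroup.closure S := hS ▸ Subgroup.mem_top γ
  induction hγ using Subgroup.closure_induction with
  | mem x hx => exact h x hx
  | one => exact ⟨1, fun x => by simp⟩
  | mul a b _ _ ha hb =>
    obtain ⟨Q, hQ⟩ := ha
    obtain ⟨Q', hQ'⟩ := hb
    exact ⟨Q * Q', fun x => by rw [map_mul, map_mul, ← hQ, ← hQ']; rfl⟩
  | inv a _ ha =>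
    obtain ⟨Q, hQ⟩ := ha
    exact ⟨Q.adjugate, fun x => by
      rw [map_inv, RingHom.map_adjugate, ← hQ, Matrix.SpecialLinearGroup.coe_inv]⟩

/-- Transfer of closures to all group elements. -/
lemma hcoord_mem {X ι : Type*} (c : X → ι → ℂ) (φ : X → Γ →* SLC d) {S : Set Γ}
    (hS : Subgroup.closure S = ⊤)
    (h : ∀ γ ∈ S, ∃ Q : Matrix (Fin d) (Fin d) (MvPolynomial ι ℂ),
      ∀ x, (φ x γ).val = (eval (c x)).mapMatrix Q)
    {T : Set (ι → ℂ)} (hT : ∀ y ∈ T, ∃ x, y = c x ∧ hcoord (φ x) ∈ intHom Γ d)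
    {x₀ : X} (hx : c x₀ ∈ polyCl T) : hcoord (φ x₀) ∈ polyCl (intHom Γ d) := by
  choose Q hQ using polyMap_of_gens c φ hS h
  have e : ∀ x, hcoord (φ x) = fun v => eval (c x) (Q v.1 v.2.1 v.2.2) := fun x => funext fun v => by
    rw [hcoord, hQ]; rfl
  rw [e]
  refine polyCl_map _ (fun y hy => ?_) hx
  obtain ⟨x, rfl, hx'⟩ := hT y hy
  rw [← e]
  exact subset_polyCl _ hx'

/-- Scalars times special linear matrices. -/
noncomputable def scSL (d : ℕ) : ℂˣ × SLC d →* (Mat d)ˣ :=
  MonoidHom.noncommCoprod (Units.map (algebraMap ℂ (Mat d)).toMonoidHom)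
    Matrix.SpecialLinearGroup.toGL fun c A => Units.ext (Algebra.commutes (c : ℂ) A.val)

lemma scSL_val (x : ℂˣ × SLC d) : (scSL d x).val = (x.1 : ℂ) • x.2.val := by
  show algebraMap ℂ (Mat d) (x.1 : ℂ) * x.2.val = _
  rw [Algebra.smul_def]

lemma exists_scSL [NeZero d] (U : (Mat d)ˣ) : ∃ x : ℂˣ × SLC d, scSL d x = U := by
  have hU : U.val.det ≠ 0 := ((Matrix.isUnit_iff_isUnit_det _).1 U.isUnit).ne_zero
  obtain ⟨c, hc⟩ := IsAlgClosed.exists_pow_nat_eq U.val.det (Nat.pos_of_neZero d)
  have hc0 : c ≠ 0 := fun e => by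
    rw [e, zero_pow (NeZero.ne d)] at hc
    exact hU hc.symm
  refine ⟨(Units.mk0 c hc0, ⟨c⁻¹ • U.val, by
    rw [Matrix.det_smul, Fintype.card_fin, inv_pow, hc, inv_mul_cancel₀ hU]⟩), Units.ext ?_⟩
  rw [scSL_val]
  exact smul_inv_smul₀ hc0 _

lemma closure_of (g s : ℕ) :
    Subgroup.closure (Set.range (PresentedGroup.of : CGen g s → CGrp g s)) = ⊤ :=
  PresentedGroup.closure_range_of _

/-- An irreducible representation generated by special linear matrices up to scalars. -/
lemma irred_snd {ρ : Γ →* (Mat d)ˣ} (hirr : Irred fun γ => (ρ γ).val) {S : Set Γ}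
    (hS : Subgroup.closure S = ⊤) {κ : Type*} {f : κ → Mat d}
    (h : ∀ γ ∈ S, ∃ k, ∃ c : ℂ, (ρ γ).val = c • f k) : Irred f := fun U hU =>
  hirr U fun γ => invariant_closure ρ (fun x hx u hu => by
    obtain ⟨k, c, hc⟩ := h x hx
    rw [hc, Matrix.smul_mulVec]
    exact U.smul_mem c (hU k u hu)) γ (hS ▸ Subgroup.mem_top γ)

lemma twisted_closed (n : ℕ) : Twisted (CGrp (n + 1) 0) := by
  intro d _ ρ hirr
  rcases Nat.lt_or_ge d 2 with h2 | h2
  · obtain rfl : d = 1 := by have := Nat.pos_of_neZero d; omega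
    exact twisted_one ρ
  choose x hx using fun v : CGen (n + 1) 0 => exists_scSL (ρ (PresentedGroup.of v))
  have hrel : curveRel x = 1 := by
    refine Prod.ext ?_ ?_
    · show MonoidHom.fst ℂˣ (SLC d) (curveRel x) = 1
      rw [map_curveRel]
      simp [curveRel, mul_comm _ (_ : ℂˣ)]
    · have h : scSL d (curveRel x) = 1 := by
        rw [map_curveRel]
        simp only [hx]
        exact curveRel_hom ρ
      have h1 : (curveRel x).1 = 1 := by
        show MonoidHom.fst ℂˣ (SLC d) (curveRel x) = 1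
        rw [map_curveRel]
        simp [curveRel, mul_comm _ (_ : ℂˣ)]
      refine Matrix.SpecialLinearGroup.toGL_injective ?_
      show Matrix.SpecialLinearGroup.toGL (curveRel x).2 = Matrix.SpecialLinearGroup.toGL 1
      rw [map_one, ← h]
      exact Units.ext (by rw [scSL_val, h1, Units.val_one, one_smul]; rfl)
  let X := {σ : Handles n (SLC d) // relator σ = 1}
  have hval : ∀ σ : Handles n (SLC d), (curveRel fun v : CGen (n + 1) 0 =>
      Sum.elim (fun w => if w.2 then σ.2 w.1 else σ.1 w.1) Fin.elim0 v) = relator σ := fun σ => by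
    rw [relator_ofFn]
    simp [curveRel]
  let φ : X → CGrp (n + 1) 0 →* SLC d := fun σ => curveHom _ ((hval σ.1).trans σ.2)
  let σ₀ : Handles n (SLC d) := (fun i => (x (.inl (i, false))).2, fun i => (x (.inl (i, true))).2)
  have hσ₀ : relator σ₀ = 1 := by
    rw [← hval, ← map_one (MonoidHom.snd ℂˣ (SLC d)), ← hrel, map_curveRel]
    congr 1
    funext v
    rcases v with ⟨i, b⟩ | j
    · cases b <;> simp [σ₀]
    · exact j.elim0
  have hI : Irred (gens σ₀) := irred_snd hirr (closure_of _ _) fun γ hγ => by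
    obtain ⟨v, rfl⟩ := hγ
    rcases v with ⟨i, b⟩ | j
    · refine ⟨(i, b), ((x (.inl (i, b))).1 : ℂ), ?_⟩
      rw [← hx, scSL_val]
      cases b <;> rfl
    · exact j.elim0
  refine ⟨(MonoidHom.fst _ _).comp (curveHom x hrel), φ ⟨σ₀, hσ₀⟩, 1, ?_, fun γ => ?_⟩
  · refine hcoord_mem (fun σ : X => coord σ.1) φ (closure_of _ _) ?_ (T := intPts n d) ?_
      (mem_of_full_pos h2 hσ₀ hI.full).2
    · rintro _ ⟨⟨i, b⟩ | j, rfl⟩
      · refine ⟨Matrix.of fun p q => MvPolynomial.X ((i, b), p, q), fun σ => ?_⟩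
        ext p q
        cases b <;> simp [φ, coord]
      · exact j.elim0
    · rintro y ⟨τ, hτ, rfl⟩
      refine ⟨⟨mapH (castSL d) τ, by rw [mapH_relator, hτ, map_one]⟩, rfl, ?_⟩
      refine ⟨curveHom (fun v => Sum.elim (fun w => if w.2 then τ.2 w.1 else τ.1 w.1) Fin.elim0 v)
        (by rw [← hτ, relator_ofFn]; simp [curveRel]), ?_⟩
      refine congrArg hcoord (funext fun γ => ?_)
      rw [← MonoidHom.comp_apply]
      refine DFunLike.congr_fun (PresentedGroup.ext fun v => ?_) γ
      rcases v with ⟨i, b⟩ | j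
      · cases b <;> simp [φ, mapH]
      · exact j.elim0
  · have : ρ = (scSL d).comp
        (((MonoidHom.fst ℂˣ (SLC d)).comp (curveHom x hrel)).prod (φ ⟨σ₀, hσ₀⟩)) := by
      refine PresentedGroup.ext fun v => ?_
      rw [MonoidHom.comp_apply, MonoidHom.prod_apply, MonoidHom.comp_apply, curveHom_of]
      conv_lhs => rw [← hx]
      congr 1
      refine Prod.ext rfl ?_
      rcases v with ⟨i, b⟩ | j
      · cases b <;> simp [φ, σ₀]
      · exact j.elim0
    conv_lhs => rw [this]
    simp [scSL_val]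

lemma twisted_punctured (g s : ℕ) : Twisted (CGrp g (s + 1)) := by
  intro d _ ρ hirr
  rcases Nat.lt_or_ge d 2 with h2 | h2
  · obtain rfl : d = 1 := by have := Nat.pos_of_neZero d; omega
    exact twisted_one ρ
  choose x hx using fun v : CGen g s => exists_scSL (ρ (PresentedGroup.of (keep v)))
  have hρ : ρ = (scSL d).comp (curveHom (extP x) (curveRel_extP x)) :=
    hom_ext_keep fun v => by simp [extP_keep, hx]
  let M := Fintype.card (CGen g s)
  let eF := Fintype.equivFin (CGen g s)
  let φ : Handles M (SLC d) → CGrp g (s + 1) →* SLC d := fun σ =>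
    curveHom (extP fun v => σ.1 (eF v).castSucc) (curveRel_extP _)
  let σ₀ : Handles M (SLC d) :=
    (Fin.snoc (fun k => (x (eF.symm k)).2) 1, fun _ => 1)
  have hσ₀ : relator σ₀ = 1 := by
    rw [relator_ofFn]
    simp [σ₀]
  have hgen : Subgroup.closure
      (Set.range fun v : CGen g s => (PresentedGroup.of (keep v) : CGrp g (s + 1))) = ⊤ := by
    refine top_unique ((closure_of g (s + 1)).ge.trans ((Subgroup.closure_le _).2 ?_))
    rintro _ ⟨v, rfl⟩
    rcases v with v | j
    · exact Subgroup.subset_closure ⟨.inl v, rfl⟩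
    induction j using Fin.lastCases with
    | cast j => exact Subgroup.subset_closure ⟨.inr j, rfl⟩
    | last =>
      have h := curveRel_hom (MonoidHom.id (CGrp g (s + 1)))
      rw [curveRel_succ, mul_eq_one_iff_inv_eq] at h
      simp only [MonoidHom.id_apply] at h
      show PresentedGroup.of _ ∈ _
      rw [← h]
      refine inv_mem (mul_mem (list_prod_mem fun y hy => ?_) (list_prod_mem fun y hy => ?_))
      · obtain ⟨i, rfl⟩ := (List.mem_ofFn' _ _).1 hy
        exact comm_mem' (Subgroup.subset_closure ⟨_, rfl⟩) (Subgroup.subset_closure ⟨_, rfl⟩)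
      · obtain ⟨i, rfl⟩ := (List.mem_ofFn' _ _).1 hy
        exact Subgroup.subset_closure ⟨_, rfl⟩
  have hI : Irred (gens σ₀) := irred_snd hirr hgen fun γ hγ => by
    obtain ⟨v, rfl⟩ := hγ
    refine ⟨((eF v).castSucc, false), ((x v).1 : ℂ), ?_⟩
    rw [← hx, scSL_val]
    simp [gens, σ₀]
  refine ⟨(MonoidHom.fst _ _).comp (curveHom (extP x) (curveRel_extP x)), φ σ₀, 1, ?_, fun γ => ?_⟩
  · refine hcoord_mem (fun σ : Handles M (SLC d) => coord σ) φ hgen ?_ (T := intPts M d) ?_
      (mem_of_full_pos h2 hσ₀ hI.full).2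
    · rintro _ ⟨v, rfl⟩
      refine ⟨Matrix.of fun p q => MvPolynomial.X (((eF v).castSucc, false), p, q), fun σ => ?_⟩
      ext p q
      simp [φ, coord, extP_keep]
    · rintro y ⟨τ, -, rfl⟩
      refine ⟨mapH (castSL d) τ, rfl, curveHom (extP fun v => τ.1 (eF v).castSucc)
        (curveRel_extP _), ?_⟩
      refine congrArg hcoord (funext fun γ => ?_)
      rw [← MonoidHom.comp_apply]
      exact DFunLike.congr_fun (hom_ext_keep fun v => by simp [φ, mapH, extP_keep]) γ
  · have : φ σ₀ = (MonoidHom.snd _ _).comp (curveHom (extP x) (curveRel_extP x)) :=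
      hom_ext_keep fun v => by simp [φ, σ₀, extP_keep]
    conv_lhs => rw [hρ]
    simp [scSL_val, this]
where
  comm_mem' {G : Type} [Group G] {H : Subgroup G} {a b : G} (ha : a ∈ H) (hb : b ∈ H) :
      a * b * a⁻¹ * b⁻¹ ∈ H :=
    mul_mem (mul_mem (mul_mem ha hb) (inv_mem ha)) (inv_mem hb)

/-- Fundamental groups of curves are twisted. -/
theorem twisted_curve : ∀ g s : ℕ, Twisted (CGrp g s)
  | n + 1, 0 => twisted_closed n
  | 0, 0 => fun d _ ρ hirr => by
    rcases Nat.lt_or_ge d 2 with h2 | h2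
    · obtain rfl : d = 1 := by have := Nat.pos_of_neZero d; omega
      exact twisted_one ρ
    have h1 : ρ = 1 := PresentedGroup.ext fun v => Sum.elim (fun w => w.1.elim0) Fin.elim0 v
    obtain ⟨c, hc⟩ := hirr.full.triv (Matrix.single (0 : Fin d) ⟨1, h2⟩ (1 : ℂ))
      fun γ => by simp [h1]
    have := congrFun (congrFun hc 0) ⟨1, h2⟩
    simp [Matrix.single, Fin.ext_iff] at this
  | g, s + 1 => twisted_punctured g s

/-- Characters are determined by finitely many generators, with integer exponents. -/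
def FreeAb (Γ : Type*) [Group Γ] : Prop :=
  ∃ (N : ℕ) (e : Fin N → Γ) (w : Γ → Fin N → ℤ), (∀ γ δ, w (γ * δ) = w γ + w δ) ∧
    ∀ (χ : Γ →* ℂˣ) (γ : Γ), χ γ = ∏ v, χ (e v) ^ w γ v

/-- From generators, a universal integral lift. -/
lemma freeAb_of {N : ℕ} (e : Fin N → Γ) (E : Γ →* Multiplicative (Fin N → ℤ))
    (h : ∀ χ : Γ →* ℂˣ, ∀ γ, χ γ = ∏ v, χ (e v) ^ (E γ).toAdd v) : FreeAb Γ :=
  ⟨N, e, fun γ => (E γ).toAdd, fun γ δ => by show (E (γ * δ)).toAdd = _; rw [map_mul]; rfl, h⟩

/-- The character with given values on generators. -/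
noncomputable def charOf {N : ℕ} (t : Fin N → ℂˣ) : Multiplicative (Fin N → ℤ) →* ℂˣ where
  toFun x := ∏ v, t v ^ x.toAdd v
  map_one' := by simp
  map_mul' x y := by simp [_root_.zpow_add, Finset.prod_mul_distrib]

lemma charOf_single {N : ℕ} (t : Fin N → ℂˣ) (v : Fin N) :
    charOf t (Multiplicative.ofAdd (Pi.single v 1)) = t v := by
  show ∏ u, t u ^ (Pi.single v 1 : Fin N → ℤ) u = t v
  rw [Finset.prod_eq_single v (fun u _ hu => by simp [hu]) (by simp)]
  simp

lemma freeAb_curve : ∀ g s : ℕ, FreeAb (CGrp g s)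
  | g, 0 => by
    let eF := Fintype.equivFin (CGen g 0)
    let E : CGrp g 0 →* Multiplicative (Fin (Fintype.card (CGen g 0)) → ℤ) :=
      curveHom (fun v => Multiplicative.ofAdd (Pi.single (eF v) 1))
        (by simp [curveRel, mul_comm _ (_ : Multiplicative _)])
    refine freeAb_of (fun k => PresentedGroup.of (eF.symm k)) E fun χ => DFunLike.congr_fun
      (PresentedGroup.ext (ψ := (charOf fun k => χ (PresentedGroup.of (eF.symm k))).comp E)
        fun v => ?_)
    simp [E, charOf_single]
  | g, s + 1 => by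
    let eF := Fintype.equivFin (CGen g s)
    let E : CGrp g (s + 1) →* Multiplicative (Fin (Fintype.card (CGen g s)) → ℤ) :=
      curveHom (extP fun v => Multiplicative.ofAdd (Pi.single (eF v) 1)) (curveRel_extP _)
    refine freeAb_of (fun k => PresentedGroup.of (keep (eF.symm k))) E fun χ => DFunLike.congr_fun
      (hom_ext_keep (ψ := (charOf fun k => χ (PresentedGroup.of (keep (eF.symm k)))).comp E)
        fun v => ?_)
    simp [E, charOf_single, extP_keep]

lemma FreeAb.prod {H : Type*} [Group H] (hG : FreeAb Γ) (hH : FreeAb H) : FreeAb (Γ × H) := by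
  obtain ⟨N, e, w, hw, hχ⟩ := hG
  obtain ⟨N', e', w', hw', hχ'⟩ := hH
  refine ⟨N + N', Fin.append (fun v => (e v, 1)) (fun v => (1, e' v)),
    fun γ => Fin.append (w γ.1) (w' γ.2), fun γ δ => ?_, fun χ γ => ?_⟩
  · funext v
    refine Fin.addCases (fun i => ?_) (fun i => ?_) v <;> simp [hw, hw']
  · rw [Fin.prod_univ_add]
    simp only [Fin.append_left, Fin.append_right]
    have h1 := hχ (χ.comp (MonoidHom.inl Γ H)) γ.1
    have h2 := hχ' (χ.comp (MonoidHom.inr Γ H)) γ.2
    simp only [MonoidHom.coe_comp, Function.comp_apply, MonoidHom.inl_apply,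
      MonoidHom.inr_apply] at h1 h2
    rw [← h1, ← h2, ← map_mul]
    simp

end Vale.Agent.P002
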