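import Vale.Agent.P002.Product.Basic

/-!
Units of the integers of a number field are dense in the tori cut out by a monomial of bounded
degree.
-/

namespace Vale.Agent.P002

open MvPolynomial Finset

/-- The field generated by a primitive root of unity and the square root of two. -/
noncomputable def fldL (r : ℕ) : IntermediateField ℚ ℂ :=
  IntermediateField.adjoin ℚ {Complex.exp (2 * Real.pi * Complex.I / r), ((√2 : ℝ) : ℂ)}

/-- Its ring of integers. -/
noncomputable def intL (r : ℕ) : Subring ℂ :=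
  (fldL r).toSubfield.toSubring ⊓ (integralClosure ℤ ℂ).toSubring

lemma mem_intL {r : ℕ} {x : ℂ} : x ∈ intL r ↔ x ∈ fldL r ∧ IsIntegral ℤ x := Iff.rfl

/-- Its units. -/
noncomputable def unitsL (r : ℕ) : Subgroup ℂˣ where
  carrier := {x | x.val ∈ intL r ∧ x⁻¹.val ∈ intL r}
  one_mem' := ⟨by simp, by simp⟩
  mul_mem' := fun hx hy =>
    ⟨mul_mem hx.1 hy.1, by rw [_root_.mul_inv_rev, Units.val_mul]; exact mul_mem hy.2 hx.2⟩
  inv_mem' := fun hx => ⟨hx.2, by rw [inv_inv]; exact hx.1⟩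

lemma isIntegral_sqrt_two : IsIntegral ℤ ((√2 : ℝ) : ℂ) :=
  IsIntegral.of_pow two_pos (by
    rw [← Complex.ofReal_pow, Real.sq_sqrt zero_le_two]
    simpa using isIntegral_algebraMap (R := ℤ) (A := ℂ) (x := (2 : ℤ)))

lemma finiteDimensional_fldL (r : ℕ) [NeZero r] : FiniteDimensional ℚ (fldL r) :=
  IntermediateField.finiteDimensional_adjoin fun x hx => by
    rcases hx with rfl | rfl
    · exact ((Complex.isPrimitiveRoot_exp r (NeZero.ne r)).isIntegral (Nat.pos_of_neZero r)).tower_top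
    · exact isIntegral_sqrt_two.tower_top

lemma root_mem_unitsL {r : ℕ} [NeZero r] {x : ℂˣ} (hx : x ^ r = 1) : x ∈ unitsL r := by
  have key : ∀ y : ℂˣ, y ^ r = 1 → (y : ℂ) ∈ intL r := fun y hy => by
    have h : (y : ℂ) ^ r = 1 := by rw [← Units.val_pow_eq_pow_val, hy, Units.val_one]
    obtain ⟨i, -, hi⟩ :=
      (Complex.isPrimitiveRoot_exp r (NeZero.ne r)).eq_pow_of_pow_eq_one h
    refine mem_intL.2 ⟨?_, IsIntegral.of_pow (Nat.pos_of_neZero r) (by rw [h]; exact isIntegral_one)⟩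
    rw [← hi]
    exact pow_mem (IntermediateField.subset_adjoin _ _ (Set.mem_insert _ _)) i
  exact ⟨key x hx, key _ (by rw [inv_pow, hx, inv_one])⟩

/-- A unit of infinite order. -/
lemma exists_unit_inj (r : ℕ) :
    ∃ u ∈ unitsL r, Function.Injective fun n : ℕ => ((u : ℂˣ) : ℂ) ^ n := by
  have hs : (√2 : ℝ) ∈ Set.Ioi (0 : ℝ) := Real.sqrt_pos.2 two_pos
  have h2 : (√2 : ℝ) * √2 = 2 := Real.mul_self_sqrt zero_le_two
  have hmul : ((√2 : ℝ) + 1 : ℂ) * ((√2 : ℝ) - 1) = 1 := by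
    rw [show ((√2 : ℝ) + 1 : ℂ) * ((√2 : ℝ) - 1) = ((√2 * √2 : ℝ) : ℂ) - 1 by push_cast; ring, h2]
    norm_num
  have hI : ((√2 : ℝ) : ℂ) ∈ intL r :=
    mem_intL.2 ⟨IntermediateField.subset_adjoin _ _ (Set.mem_insert_of_mem _ rfl),
      isIntegral_sqrt_two⟩
  refine ⟨Units.mkOfMulEqOne _ _ hmul, ⟨add_mem hI (one_mem _), sub_mem hI (one_mem _)⟩, ?_⟩
  intro m n h
  simp only [Units.val_mkOfMulEqOne] at h
  have h' : ((√2 : ℝ) + 1) ^ m = ((√2 : ℝ) + 1) ^ n := by exact_mod_cast h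
  exact (pow_right_strictMono₀ (by have := Set.mem_Ioi.1 hs; linarith)).injective h'

/-- Functions of invertible variables given, with their inverses, by Laurent polynomials. -/
def laurent (κ : Type*) : Subgroup ((κ → ℂˣ) → ℂˣ) where
  carrier := {f | ∃ q q' : MvPolynomial (κ ⊕ κ) ℂ, ∀ s : κ → ℂˣ,
    ((f s : ℂˣ) : ℂ) = eval (Sum.elim (fun i => (s i : ℂ)) fun i => (s i : ℂ)⁻¹) q ∧
    ((f s : ℂˣ) : ℂ)⁻¹ = eval (Sum.elim (fun i => (s i : ℂ)) fun i => (s i : ℂ)⁻¹) q'}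
  one_mem' := ⟨1, 1, fun s => by simp⟩
  mul_mem' := by
    rintro f g ⟨q, q', hq⟩ ⟨p, p', hp⟩
    refine ⟨q * p, q' * p', fun s => ⟨?_, ?_⟩⟩
    · rw [map_mul, ← (hq s).1, ← (hp s).1]; simp
    · rw [map_mul, ← (hq s).2, ← (hp s).2]; simp [mul_comm]
  inv_mem' := by
    rintro f ⟨q, q', hq⟩
    exact ⟨q', q, fun s => ⟨by rw [← (hq s).2]; simp, by rw [← (hq s).1]; simp⟩⟩

lemma laurent_coord {κ : Type*} (i : κ) : (fun s : κ → ℂˣ => s i) ∈ laurent κ :=
  ⟨X (.inl i), X (.inr i), fun s => by simp⟩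

lemma laurent_const {κ : Type*} (c : ℂˣ) : (fun _ : κ → ℂˣ => c) ∈ laurent κ :=
  ⟨C (c : ℂ), C ((c : ℂ)⁻¹), fun s => by simp⟩

/-- Clearing denominators. -/
lemma exists_clear {κ : Type*} [Fintype κ] (P : MvPolynomial (κ ⊕ κ) ℂ) :
    ∃ (N : ℕ) (F : MvPolynomial κ ℂ), ∀ s : κ → ℂ, (∀ i, s i ≠ 0) →
      eval s F = (∏ i, s i) ^ N * eval (Sum.elim s fun i => (s i)⁻¹) P := by
  classical
  induction P using MvPolynomial.induction_on with
  | C a => exact ⟨0, C a, fun s _ => by simp⟩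
  | add p q hp hq =>
    obtain ⟨N₁, F₁, h1⟩ := hp
    obtain ⟨N₂, F₂, h2⟩ := hq
    refine ⟨N₁ + N₂, F₁ * (∏ i, X i) ^ N₂ + F₂ * (∏ i, X i) ^ N₁, fun s hs => ?_⟩
    simp only [map_add, map_mul, map_pow, map_prod, eval_X, h1 s hs, h2 s hs]
    ring
  | mul_X p v hp =>
    obtain ⟨N, F, h⟩ := hp
    rcases v with i | i
    · exact ⟨N, F * X i, fun s hs => by simp [h s hs, mul_assoc]⟩
    · refine ⟨N + 1, F * ∏ l ∈ univ.erase i, X l, fun s hs => ?_⟩
      simp only [map_mul, map_prod, eval_X, Sum.elim_inr, h s hs]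
      rw [← mul_prod_erase univ s (mem_univ i), pow_succ]
      field_simp [hs i]

/-- Powers of a number of infinite order are dense in every torus. -/
lemma powers_dense {κ : Type*} [Fintype κ] (u : ℂˣ)
    (hu : Function.Injective fun n : ℕ => (u : ℂ) ^ n) (s : κ → ℂˣ) :
    Sum.elim (fun i => (s i : ℂ)) (fun i => (s i : ℂ)⁻¹) ∈
      polyCl {y | ∃ m : κ → ℕ, y = Sum.elim (fun i => ((u ^ m i : ℂˣ) : ℂ))
        fun i => ((u ^ m i : ℂˣ) : ℂ)⁻¹} := by
  classical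
  intro P hP
  obtain ⟨N, F, hF⟩ := exists_clear P
  have hF0 : F = 0 := by
    refine MvPolynomial.funext_set (fun _ => Set.range fun n : ℕ => (u : ℂ) ^ n)
      (fun _ => Set.infinite_range_of_injective hu) fun x hx => ?_
    choose m hm using fun i => hx i (Set.mem_univ i)
    have hx0 : ∀ i, x i ≠ 0 := fun i => by rw [← hm i]; exact pow_ne_zero _ u.ne_zero
    rw [hF x hx0, map_zero, hP _ ⟨m, ?_⟩, mul_zero]
    congr 1 <;> funext i <;> simp [← hm i]
  have h := hF (fun i => (s i : ℂ)) fun i => (s i).ne_zero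
  rw [hF0, map_zero, eq_comm, mul_eq_zero] at h
  exact h.resolve_left (pow_ne_zero _ (prod_ne_zero_iff.2 fun i _ => (s i).ne_zero))

/-- A power of a product in a commutative group. -/
lemma prod_zpow_sum {G ι : Type*} [CommGroup G] (a : G) (s : Finset ι) (f : ι → ℤ) :
    ∏ i ∈ s, a ^ f i = a ^ ∑ i ∈ s, f i := by
  classical
  induction s using Finset.induction_on with
  | empty => simp
  | insert i s hi ih => rw [prod_insert hi, sum_insert hi, zpow_add, ih]

/-- The weights are a primitive vector times their greatest common divisor. -/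
lemma exists_bezout {r k : ℕ} [NeZero r] (d : Fin k → ℕ) (hd : ∑ j, d j = r) :
    ∃ (g : ℤ) (e c : Fin k → ℤ), (∀ j, (d j : ℤ) = e j * g) ∧ ∑ j, c j * e j = 1 ∧
      (r : ℤ) = (∑ j, e j) * g := by
  classical
  obtain ⟨g, hg⟩ := IsPrincipalIdealRing.principal (Ideal.span (Set.range fun j => (d j : ℤ)))
  have hdvd : ∀ j, ∃ e : ℤ, (d j : ℤ) = e * g := fun j => by
    have : (d j : ℤ) ∈ Ideal.span (Set.range fun j => (d j : ℤ)) := Ideal.subset_span ⟨j, rfl⟩
    rw [hg, Submodule.mem_span_singleton] at this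
    obtain ⟨e, he⟩ := this
    exact ⟨e, he.symm⟩
  choose e he using hdvd
  obtain ⟨c, hc⟩ : ∃ c : Fin k → ℤ, ∑ j, c j * (d j : ℤ) = g := by
    have : g ∈ Ideal.span (Set.range fun j => (d j : ℤ)) := by
      rw [hg]; exact Submodule.mem_span_singleton_self g
    obtain ⟨c, hc⟩ := Submodule.mem_span_range_iff_exists_fun ℤ |>.1 this
    exact ⟨c, by simpa using hc⟩
  have hg0 : g ≠ 0 := fun h0 => NeZero.ne r (by
    rw [← hd]
    exact Finset.sum_eq_zero fun j _ => by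
      have := he j
      rw [h0, mul_zero] at this
      exact_mod_cast this)
  have hce : ∑ j, c j * e j = 1 := by
    refine mul_right_cancel₀ hg0 ?_
    rw [one_mul, Finset.sum_mul]
    exact (Finset.sum_congr rfl fun j _ => by rw [he j, mul_assoc]).trans hc
  exact ⟨g, e, c, he, hce, by rw [← hd, Nat.cast_sum, Finset.sum_mul]; exact Finset.sum_congr rfl fun j _ => he j⟩

/-- A parametrisation of the torus by Laurent monomials. -/
lemma exists_param {r k N : ℕ} [NeZero r] (d : Fin k → ℕ) (hd : ∑ j, d j = r)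
    (t : Fin k → Fin N → ℂˣ) (ht : ∀ v, ∏ j, t j v ^ d j = 1) :
    ∃ F : (Fin k × Fin N → ℂˣ) → Fin k → Fin N → ℂˣ, F (fun p => t p.1 p.2) = t ∧
      (∀ s v, ∏ j, F s j v ^ d j = 1) ∧
      (∀ j v, (fun s => F s j v) ∈ laurent (Fin k × Fin N)) ∧
      ∀ s, (∀ p, s p ∈ unitsL r) → ∀ j v, F s j v ∈ unitsL r := by
  classical
  obtain ⟨g, e, c, he, hce, hre⟩ := exists_bezout d hd
  set ζ : Fin N → ℂˣ := fun v => ∏ l, t l v ^ e l with hζ
  have hζg : ∀ v, ζ v ^ g = 1 := fun v => by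
    rw [hζ, ← Finset.prod_zpow, ← ht v]
    exact Finset.prod_congr rfl fun j _ => by rw [← zpow_mul, ← he j, zpow_natCast]
  have hζU : ∀ v, ζ v ∈ unitsL r := fun v => by
    refine root_mem_unitsL ?_
    rw [← zpow_natCast, hre, mul_comm, zpow_mul, hζg, one_zpow]
  let F : (Fin k × Fin N → ℂˣ) → Fin k → Fin N → ℂˣ := fun s j v =>
    ζ v ^ c j * (s (j, v) * (∏ l, s (l, v) ^ e l) ^ (-c j))
  have hFt : F (fun p => t p.1 p.2) = t := funext fun j => funext fun v => by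
    show ζ v ^ c j * (t j v * ζ v ^ (-c j)) = t j v
    rw [mul_left_comm, ← zpow_add, add_neg_cancel, zpow_zero, mul_one]
  have hFd : ∀ s v, ∏ j, F s j v ^ d j = 1 := fun s v => by
    set S := ∏ l, s (l, v) ^ e l with hS
    have h1 : ∏ j, F s j v ^ e j = ζ v := by
      simp only [F, mul_zpow, Finset.prod_mul_distrib, ← zpow_mul, ← hS, prod_zpow_sum, neg_mul,
        Finset.sum_neg_distrib, hce, zpow_one, zpow_neg_one, mul_inv_cancel, mul_one]
    rw [← hζg v, ← h1, ← Finset.prod_zpow]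
    exact Finset.prod_congr rfl fun j _ => by rw [← zpow_mul, ← he j, zpow_natCast]
  have hlau : ∀ j v, (fun s => F s j v) ∈ laurent (Fin k × Fin N) := fun j v => by
    refine mul_mem (laurent_const (ζ v ^ c j)) (mul_mem (laurent_coord (j, v)) ?_)
    have : (fun s : Fin k × Fin N → ℂˣ => (∏ l, s (l, v) ^ e l) ^ (-c j)) =
        (∏ l, (fun s : Fin k × Fin N → ℂˣ => s (l, v)) ^ e l) ^ (-c j) := by
      funext s; simp
    rw [this]
    exact zpow_mem (prod_mem fun l _ => zpow_mem (laurent_coord (l, v)) _) _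
  exact ⟨F, hFt, hFd, hlau, fun s hs j v => mul_mem (zpow_mem (hζU v) _)
    (mul_mem (hs _) (zpow_mem (prod_mem fun l _ => zpow_mem (hs _) _) _))⟩

/-- Units are dense in the torus of tuples of characters with `∏ t j ^ d j = 1`. -/
theorem units_torus_dense {r k N : ℕ} [NeZero r] (d : Fin k → ℕ) (hd : ∑ j, d j = r)
    (t : Fin k → Fin N → ℂˣ) (ht : ∀ v, ∏ j, t j v ^ d j = 1) {K : Type*}
    (w : K → Fin N → ℤ) :
    (fun x : Fin k × K => ((∏ v, t x.1 v ^ w x.2 v : ℂˣ) : ℂ)) ∈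
      polyCl {y | ∃ t' : Fin k → Fin N → ℂˣ, (∀ j v, t' j v ∈ unitsL r) ∧
        (∀ v, ∏ j, t' j v ^ d j = 1) ∧
        y = fun x : Fin k × K => ((∏ v, t' x.1 v ^ w x.2 v : ℂˣ) : ℂ)} := by
  classical
  obtain ⟨F, hFt, hFd, hlau, hFU⟩ := exists_param d hd t ht
  have hprod : ∀ x : Fin k × K, (∏ v, (fun s => F s x.1 v) ^ w x.2 v) ∈ laurent (Fin k × Fin N) :=
    fun x => prod_mem fun v _ => zpow_mem (hlau x.1 v) _
  choose q q' hq using hprod
  have e1 : ∀ s : Fin k × Fin N → ℂˣ,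
      (fun x => eval (Sum.elim (fun i => (s i : ℂ)) fun i => (s i : ℂ)⁻¹) (q x)) =
        fun x : Fin k × K => ((∏ v, F s x.1 v ^ w x.2 v : ℂˣ) : ℂ) := fun s => funext fun x => by
    rw [← (hq x s).1, Finset.prod_apply]
    rfl
  obtain ⟨u, huU, huinj⟩ := exists_unit_inj r
  have h := polyCl_map q (T := {y | ∃ t' : Fin k → Fin N → ℂˣ, (∀ j v, t' j v ∈ unitsL r) ∧
      (∀ v, ∏ j, t' j v ^ d j = 1) ∧
      y = fun x : Fin k × K => ((∏ v, t' x.1 v ^ w x.2 v : ℂˣ) : ℂ)})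
    (by
      rintro y ⟨m, rfl⟩
      rw [e1 fun i => u ^ m i]
      exact subset_polyCl _
        ⟨F fun i => u ^ m i, hFU _ fun p => pow_mem huU _, hFd _, rfl⟩)
    (powers_dense u huinj fun p : Fin k × Fin N => t p.1 p.2)
  rw [e1, hFt] at h
  exact h

end Vale.Agent.P002
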