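import Vale.Agent.P002.Product.Tensor
import Vale.Agent.P002.Product.Decomp
import Vale.Agent.P002.Product.Units
import Vale.Agent.P002.Product.Factor

/-!
Invariant polynomials vanishing at representations over the integers of a number field vanish at all
representations of products of fundamental groups of curves.
-/

namespace Vale.Agent.P002

open Matrix MvPolynomial

variable {r : ℕ} {Γ Δ : Type*} [Group Γ] [Group Δ]

/-- Homomorphisms over the integers of the number field. -/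
def intHomL (Γ : Type*) [Group Γ] (r : ℕ) : Set (Γ × Fin r × Fin r → ℂ) :=
  {x | ∃ ρ : Γ →* SLC r, (∀ γ p q, (ρ γ).val p q ∈ intL r) ∧ x = hcoord ρ}

lemma Twisted.of_equiv (h : Twisted Γ) (e : Δ ≃* Γ) : Twisted Δ := by
  intro d _ ρ hirr
  have hirr' : Irred fun γ => ((ρ.comp e.symm.toMonoidHom) γ).val := fun U hU =>
    hirr U fun δ u hu => by simpa using hU (e δ) u hu
  obtain ⟨χ, σ, M, hσ, hρ⟩ := h d _ hirr'
  refine ⟨χ.comp e.toMonoidHom, σ.comp e.toMonoidHom, M, ?_, fun δ => by simpa using hρ (e δ)⟩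
  have h1 := polyCl_map (T := intHom Δ d)
    (fun v : Δ × Fin d × Fin d => MvPolynomial.X (e v.1, v.2.1, v.2.2)) (fun y hy => ?_) hσ
  · refine (congrArg (· ∈ polyCl (intHom Δ d)) (funext fun v => ?_)).mp h1
    simp [hcoord]
  · obtain ⟨τ, rfl⟩ := hy
    exact subset_polyCl _ ⟨τ.comp e.toMonoidHom, by funext v; simp [hcoord]⟩

lemma FreeAb.of_equiv (h : FreeAb Γ) (e : Δ ≃* Γ) : FreeAb Δ := by
  obtain ⟨N, el, w, hw, hχ⟩ := h
  refine ⟨N, fun v => e.symm (el v), fun δ => w (e δ), fun γ δ => by simp [hw], fun χ δ => ?_⟩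
  have := hχ (χ.comp e.symm.toMonoidHom) (e δ)
  simpa using this

/-- The trivial group. -/
lemma twisted_trivial [Subsingleton Γ] : Twisted Γ ∧ FreeAb Γ := by
  refine ⟨fun d _ ρ hirr => ?_, ⟨0, Fin.elim0, 0, fun _ _ => by simp, fun χ γ => ?_⟩⟩
  · rcases Nat.lt_or_ge d 2 with h2 | h2
    · obtain rfl : d = 1 := by have := Nat.pos_of_neZero d; omega
      exact twisted_one ρ
    have h1 : ∀ γ, ρ γ = 1 := fun γ => by rw [Subsingleton.elim γ 1, map_one]
    obtain ⟨c, hc⟩ := hirr.full.triv (Matrix.single (0 : Fin d) ⟨1, h2⟩ (1 : ℂ))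
      fun γ => by simp [h1]
    have := congrFun (congrFun hc 0) ⟨1, h2⟩
    simp [Matrix.single, Fin.ext_iff] at this
  · simp [Subsingleton.elim γ 1]

/-- Products of fundamental groups of curves. -/
theorem twisted_curves : ∀ (m : ℕ) (g s : Fin m → ℕ),
    Twisted (∀ i, CGrp (g i) (s i)) ∧ FreeAb (∀ i, CGrp (g i) (s i))
  | 0, g, s => twisted_trivial
  | m + 1, g, s => by
    obtain ⟨h1, h2⟩ := twisted_curves m (fun i => g i.succ) fun i => s i.succ
    let e : (∀ i, CGrp (g i) (s i)) ≃*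
        CGrp (g 0) (s 0) × (∀ i : Fin m, CGrp (g i.succ) (s i.succ)) :=
      { toFun := fun f => (f 0, fun i => f i.succ)
        invFun := fun p => Fin.cons p.1 p.2
        left_inv := fun f => Fin.cons_self_tail f
        right_inv := fun p => Prod.ext rfl rfl
        map_mul' := fun _ _ => rfl }
    exact ⟨((twisted_curve _ _).prod h1).of_equiv e, ((freeAb_curve _ _).prod h2).of_equiv e⟩

variable {k : ℕ} {blk : Fin r → Fin k}

/-- The polynomials giving the entries of a block diagonal sum of twisted homomorphisms. -/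
noncomputable def sumPoly (Γ : Type*) (blk : Fin r → Fin k) (v : Γ × Fin r × Fin r) :
    MvPolynomial ((Fin k × Γ) ⊕ (Σ j, Γ × Fin (bsz blk j) × Fin (bsz blk j))) ℂ :=
  Matrix.blockDiagonal' (fun j => Matrix.of fun p q =>
    X (Sum.inl (j, v.1)) * X (Sum.inr ⟨j, (v.1, p, q)⟩))
    ((bE blk).symm v.2.1) ((bE blk).symm v.2.2)

lemma eval_sumPoly (x : Fin k × Γ → ℂ) (y : ∀ j, Γ × Fin (bsz blk j) × Fin (bsz blk j) → ℂ)
    (v : Γ × Fin r × Fin r) :
    eval (Sum.elim x fun u : Σ j, Γ × Fin (bsz blk j) × Fin (bsz blk j) => y u.1 u.2)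
        (sumPoly Γ blk v) =
      bdiag blk (fun j => x (j, v.1) • Matrix.of fun p q => y j (v.1, p, q)) v.2.1 v.2.2 := by
  have h := congrFun (congrFun (Matrix.blockDiagonal'_map
    (fun j => Matrix.of fun p q : Fin (bsz blk j) =>
      (X (Sum.inl (j, v.1)) * X (Sum.inr ⟨j, (v.1, p, q)⟩) :
        MvPolynomial ((Fin k × Γ) ⊕ (Σ j, Γ × Fin (bsz blk j) × Fin (bsz blk j))) ℂ))
    (eval (Sum.elim x fun u : Σ j, Γ × Fin (bsz blk j) × Fin (bsz blk j) => y u.1 u.2))
    (map_zero _)) ((bE blk).symm v.2.1)) ((bE blk).symm v.2.2)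
  refine h.trans ?_
  rw [bdiag, Matrix.submatrix_apply]
  congr 2
  funext j
  ext p q
  simp

/-- A block diagonal sum of twisted integral homomorphisms is integral. -/
lemma sum_mem_intHomL {N : ℕ} (w : Γ → Fin N → ℤ) (hw : ∀ γ δ, w (γ * δ) = w γ + w δ)
    (t : Fin k → Fin N → ℂˣ) (htU : ∀ j v, t j v ∈ unitsL r)
    (ht : ∀ v, ∏ j, t j v ^ bsz blk j = 1)
    (σ : ∀ j, Γ →* Matrix.SpecialLinearGroup (Fin (bsz blk j)) ℤ) :
    (fun v : Γ × Fin r × Fin r => bdiag blk (fun j =>
      ((∏ u, t j u ^ w v.1 u : ℂˣ) : ℂ) • (castSL _ (σ j v.1)).val) v.2.1 v.2.2) ∈ intHomL Γ r := by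
  let χ : Fin k → Γ →* ℂˣ := fun j => MonoidHom.mk' (fun γ => ∏ u, t j u ^ w γ u) fun γ δ => by
    simp [hw, _root_.zpow_add, Finset.prod_mul_distrib]
  let B : Γ → Mat r := fun γ =>
    bdiag blk fun j => (χ j γ : ℂ) • (castSL _ (σ j γ)).val
  have hχ : ∀ γ, ∏ j, χ j γ ^ bsz blk j = 1 := fun γ => by
    simp only [χ, MonoidHom.mk'_apply, ← Finset.prod_pow]
    rw [Finset.prod_comm]
    refine Finset.prod_eq_one fun u _ => ?_
    have h1 : ∏ j, (t j u ^ bsz blk j) ^ w γ u = 1 := by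
      rw [Finset.prod_zpow, ht u, _root_.one_zpow]
    rw [← h1]
    exact Finset.prod_congr rfl fun j _ => by
      rw [← zpow_natCast, ← _root_.zpow_mul, mul_comm, _root_.zpow_mul, zpow_natCast]
  have hdet : ∀ γ, (B γ).det = 1 := fun γ => by
    show (bdiag blk _).det = 1
    rw [det_bdiag]
    simp only [Matrix.det_smul, Fintype.card_fin, Matrix.SpecialLinearGroup.det_coe, mul_one]
    simpa using congrArg Units.val (hχ γ)
  refine ⟨MonoidHom.mk' (fun γ => (⟨B γ, hdet γ⟩ : SLC r)) fun γ δ => Subtype.ext ?_,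
    fun γ p q => ?_, rfl⟩
  · show B (γ * δ) = B γ * B δ
    simp only [B]
    rw [← bdiag_mul]
    congr 1
    funext j
    simp only [Pi.mul_apply, map_mul, Units.val_mul, Matrix.SpecialLinearGroup.coe_mul,
      smul_mul_assoc, mul_smul_comm, smul_smul, mul_comm]
  · show B γ p q ∈ intL r
    obtain ⟨⟨i, a⟩, rfl⟩ := (bE blk).surjective p
    obtain ⟨⟨j, b⟩, rfl⟩ := (bE blk).surjective q
    show bdiag blk _ (bE blk ⟨i, a⟩) (bE blk ⟨j, b⟩) ∈ intL r
    rw [bdiag_apply]
    by_cases hij : i = j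
    · subst hij
      rw [Matrix.blockDiagonal'_apply_eq, Matrix.smul_apply, smul_eq_mul]
      refine mul_mem ?_ ?_
      · have hmem : ∏ u, t i u ^ w γ u ∈ unitsL r :=
          prod_mem fun u _ => zpow_mem (htU i u) _
        exact hmem.1
      · exact intCast_mem _ _
    · rw [Matrix.blockDiagonal'_apply_ne _ _ _ hij]
      exact zero_mem _

/-- Invariant polynomials vanishing at homomorphisms over the integers of the number field vanish
at all homomorphisms. -/
theorem eval_zero_of_twisted [NeZero r] (hT : Twisted Γ) (hA : FreeAb Γ)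
    {P : MvPolynomial (Γ × Fin r × Fin r) ℂ} (hP : HConjInv P)
    (hP0 : ∀ x ∈ intHomL Γ r, eval x P = 0) (ρ : Γ →* SLC r) : eval (hcoord ρ) P = 0 := by
  classical
  obtain ⟨k, blk, ρ', hsurj, hBD, hirr, he⟩ := refine_hom_rec hP (r - 1) 1 (fun _ => 0) rfl
    (fun _ => ⟨0, Subsingleton.elim _ _⟩) ρ fun _ _ _ h => absurd rfl h
  rw [← he]
  have hd : ∀ j, NeZero (bsz blk j) := fun j => ⟨(bsz_pos hsurj j).ne'⟩
  choose χ σ M hσ hρ' using fun j =>
    have := hd j
    hT (bsz blk j) (blockRep ρ' hBD j) (irred_blockRep hBD hirr j)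
  obtain ⟨N, e, w, hw, hχ⟩ := hA
  let t : Fin k → Fin N → ℂˣ := fun j v => χ j (e v)
  have hblock : ∀ γ j, bproj blk (ρ' γ).val j =
      (χ j γ : ℂ) • ((M j).val * (σ j γ).val * (M j)⁻¹.val) := fun γ j => hρ' j γ
  have hdet : ∀ γ, ∏ j, χ j γ ^ bsz blk j = 1 := fun γ => by
    refine Units.ext ?_
    have := det_eq_prod (hBD γ)
    rw [(ρ' γ).2] at this
    simp only [Units.coe_prod, Units.val_pow_eq_pow_val, Units.val_one]
    rw [this]
    exact Finset.prod_congr rfl fun j _ => by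
      rw [hblock, Matrix.det_smul, Matrix.det_units_conj, (σ j γ).2, mul_one, Fintype.card_fin]
  -- conjugate away the block matrices
  let U : (Mat r)ˣ := bdiagU blk fun j => (M j)⁻¹
  rw [← hP.conjU U ρ']
  have hval : hcoord ((P002.conjU U).comp ρ') = fun v : Γ × Fin r × Fin r =>
      eval (Sum.elim (fun u : Fin k × Γ => ((∏ i, t u.1 i ^ w u.2 i : ℂˣ) : ℂ))
        fun u : Σ j, Γ × Fin (bsz blk j) × Fin (bsz blk j) => hcoord (σ u.1) u.2)
        (sumPoly Γ blk v) := by
    funext v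
    rw [eval_sumPoly (fun u : Fin k × Γ => ((∏ i, t u.1 i ^ w u.2 i : ℂˣ) : ℂ))
      (fun j => hcoord (σ j)) v]
    simp only [hcoord, MonoidHom.coe_comp, Function.comp_apply, conjU_val]
    refine congrArg (fun A : Mat r => A v.2.1 v.2.2) ?_
    rw [← bdiag_bproj (hBD v.1), show U⁻¹ = bdiagU blk (fun j => (M j)⁻¹)⁻¹ from (map_inv _ _).symm,
      bdiagU_val, bdiagU_val, ← bdiag_mul, ← bdiag_mul]
    congr 1
    funext j
    simp only [Pi.mul_apply, Pi.inv_apply, inv_inv, hblock, mul_smul_comm, smul_mul_assoc,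
      ← mul_assoc, Units.inv_mul, one_mul, t, ← hχ]
    rw [mul_assoc, Units.inv_mul, mul_one]
    rfl
  rw [hval]
  refine polyCl_map (sumPoly Γ blk) (T := intHomL Γ r) (fun y hy => ?_)
    (polyCl_sum (units_torus_dense (bsz blk) (sum_bsz blk) t
      (fun v => hdet (e v)) w) (polyCl_pi fun j => hσ j)) P hP0
  obtain ⟨_, ⟨t', htU, ht', rfl⟩, _, ⟨y, hy, rfl⟩, rfl⟩ := hy
  choose τ hτ using hy
  refine subset_polyCl _ ?_
  convert sum_mem_intHomL w hw t' htU ht' τ using 1
  funext v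
  rw [eval_sumPoly (fun u : Fin k × Γ => ((∏ i, t' u.1 i ^ w u.2 i : ℂˣ) : ℂ)) y v]
  congr 2
  funext j
  rw [hτ j]
  rfl

/-- Commuting tuples satisfying the curve relations give a homomorphism of the product. -/
lemma exists_prodHom {G : Type*} [Group G] {m : ℕ} {g s : Fin m → ℕ}
    (f : ∀ i, CGen (g i) (s i) → G) (hf : ∀ i, curveRel (f i) = 1)
    (hcomm : ∀ i j, i ≠ j → ∀ v w, f i v * f j w = f j w * f i v) :
    ∃ ρ : (∀ i, CGrp (g i) (s i)) →* G,
      ∀ i v, ρ (Pi.mulSingle i (PresentedGroup.of v)) = f i v := by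
  let φ : ∀ i, CGrp (g i) (s i) →* G := fun i => curveHom (f i) (hf i)
  have hgen : Pairwise fun i j => ∀ a b, Commute (φ i a) (φ j b) := by
    intro i j hij a b
    have h1 : ∀ w c, Commute (φ i c) (f j w) := fun w c => by
      have := PresentedGroup.generated_by _ ((Subgroup.centralizer {f j w}).comap (φ i))
        (fun v => by
          rw [Subgroup.mem_comap, Subgroup.mem_centralizer_singleton_iff]
          simpa [φ] using hcomm i j hij v w) c
      rw [Subgroup.mem_comap, Subgroup.mem_centralizer_singleton_iff] at this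
      exact this
    have := PresentedGroup.generated_by _ ((Subgroup.centralizer {φ i a}).comap (φ j))
      (fun w => by
        rw [Subgroup.mem_comap, Subgroup.mem_centralizer_singleton_iff]
        simpa [φ] using (h1 w a).symm.eq) b
    rw [Subgroup.mem_comap, Subgroup.mem_centralizer_singleton_iff] at this
    exact this.symm
  refine ⟨MonoidHom.noncommPiCoprod φ hgen, fun i v => ?_⟩
  rw [MonoidHom.noncommPiCoprod_mulSingle]
  exact curveHom_of _ _ _

end Vale.Agent.P002
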